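import Vale.Agent.P365.MathlibUsed
import Mathlib.Analysis.SpecialFunctions.Complex.LogDeriv
import Mathlib.MeasureTheory.Integral.IntervalIntegral.FundThmCalculus

set_option linter.all false

/-!
# P365 T1: the bump `b(u) = (15/16) (1-u^2)^2` on `[-1,1]` and its second Cauchy transform.

`H(s) = ∫ b(u) / (u - s)^2 du`, `Im s > 0`: `‖H(s)‖ ≤ C / (1 + |s|^2)` uniformly in the open upper
half plane; and the same for the scaled bump of centre `v₀` and half width `l`.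
-/

namespace P365T1.Bump

open MeasureTheory Complex intervalIntegral

/-- antiderivative of `(1-u^2)^2/(u-s)^2` -/
noncomputable def Fa (s : ℂ) (u : ℝ) : ℂ :=
  -((1 - s ^ 2) ^ 2) / ((u : ℂ) - s) + (-4 * s * (1 - s ^ 2)) * Complex.log ((u : ℂ) - s) +
    ((u : ℂ) ^ 3 / 3 + s * (u : ℂ) ^ 2 + (3 * s ^ 2 - 2) * (u : ℂ))

theorem sub_slit {s : ℂ} (hs : 0 < s.im) (u : ℝ) : (u : ℂ) - s ∈ slitPlane := by
  rw [mem_slitPlane_iff]
  right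
  simp
  exact hs.ne'

theorem sub_ne {s : ℂ} (hs : 0 < s.im) (u : ℝ) : (u : ℂ) - s ≠ 0 :=
  slitPlane_ne_zero (sub_slit hs u)

theorem hasDerivAt_Fa {s : ℂ} (hs : 0 < s.im) (u : ℝ) :
    HasDerivAt (Fa s) (((1 - (u : ℂ) ^ 2) ^ 2) / ((u : ℂ) - s) ^ 2) u := by
  have h0 := sub_ne hs u
  have hu : HasDerivAt (fun u : ℝ => (u : ℂ)) 1 u := Complex.ofRealCLM.hasDerivAt
  have h1 : HasDerivAt (fun u : ℝ => (u : ℂ) - s) 1 u := hu.sub_const s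
  have h2 : HasDerivAt (fun u : ℝ => Complex.log ((u : ℂ) - s)) (1 / ((u : ℂ) - s)) u :=
    h1.clog_real (sub_slit hs u)
  have h3 : HasDerivAt (fun u : ℝ => -((1 - s ^ 2) ^ 2) / ((u : ℂ) - s))
      ((0 * ((u : ℂ) - s) - -((1 - s ^ 2) ^ 2) * 1) / ((u : ℂ) - s) ^ 2) u :=
    (hasDerivAt_const u _).div h1 h0
  have h4 : HasDerivAt (fun u : ℝ => (u : ℂ) ^ 3 / 3 + s * (u : ℂ) ^ 2 + (3 * s ^ 2 - 2) * (u : ℂ))
      (((3 : ℕ) * (u : ℂ) ^ (3 - 1) * 1) / 3 + s * ((2 : ℕ) * (u : ℂ) ^ (2 - 1) * 1) +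
        (3 * s ^ 2 - 2) * 1) u :=
    (((hu.pow 3).div_const 3).add ((hu.pow 2).const_mul s)).add (hu.const_mul _)
  have h5 := (h3.add (h2.const_mul (-4 * s * (1 - s ^ 2)))).add h4
  refine HasDerivAt.congr_deriv h5 ?_
  field_simp
  push_cast
  ring

theorem norm_sub_ge {s : ℂ} (hs : 0 < s.im) (u : ℝ) : s.im ≤ ‖(u : ℂ) - s‖ := by
  have h := Complex.abs_im_le_norm ((u : ℂ) - s)
  simp at h
  exact (le_abs_self _).trans h

theorem continuous_q {s : ℂ} (hs : 0 < s.im) :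
    Continuous fun u : ℝ => ((1 - (u : ℂ) ^ 2) ^ 2) / ((u : ℂ) - s) ^ 2 := by
  have h0 := sub_ne hs
  refine Continuous.div (by fun_prop) (by fun_prop) fun u => pow_ne_zero _ (h0 u)

theorem integral_q {s : ℂ} (hs : 0 < s.im) :
    ∫ u in (-1 : ℝ)..1, ((1 - (u : ℂ) ^ 2) ^ 2) / ((u : ℂ) - s) ^ 2 = Fa s 1 - Fa s (-1) :=
  integral_eq_sub_of_hasDerivAt (fun u _ => hasDerivAt_Fa hs u)
    ((continuous_q hs).intervalIntegrable _ _)

/-- `|z log z| ≤ 20` for `|z| ≤ 3` -/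
theorem norm_mul_log_le {z : ℂ} (hz : ‖z‖ ≤ 3) : ‖z‖ * ‖Complex.log z‖ ≤ 20 := by
  have h1 : ‖Complex.log z‖ ≤ |Real.log ‖z‖| + Real.pi := by
    refine (Complex.norm_le_abs_re_add_abs_im _).trans ?_
    rw [Complex.log_re, Complex.log_im]
    exact add_le_add le_rfl (Complex.abs_arg_le_pi z)
  have hn := norm_nonneg z
  have h2 : ‖z‖ * |Real.log ‖z‖| ≤ 9 := by
    rcases hn.eq_or_lt with h0 | h0
    · rw [← h0]; simp
    rcases le_total ‖z‖ 1 with h | h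
    · have h3 := Real.abs_log_mul_self_lt ‖z‖ h0 h
      rw [abs_mul, abs_of_pos h0, mul_comm] at h3
      linarith
    · rw [abs_of_nonneg (Real.log_nonneg h)]
      have h3 := Real.log_le_sub_one_of_pos h0
      nlinarith [Real.log_nonneg h]
  have h3 : Real.pi ≤ 3.15 := by linarith [Real.pi_lt_d2]
  calc ‖z‖ * ‖Complex.log z‖ ≤ ‖z‖ * (|Real.log ‖z‖| + Real.pi) := by gcongr
    _ = ‖z‖ * |Real.log ‖z‖| + ‖z‖ * Real.pi := by ring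
    _ ≤ 9 + 3 * 3.15 := by gcongr
    _ ≤ 20 := by norm_num

theorem norm_integral_q_small {s : ℂ} (hs : 0 < s.im) (h2 : ‖s‖ ≤ 2) :
    ‖∫ u in (-1 : ℝ)..1, ((1 - (u : ℂ) ^ 2) ^ 2) / ((u : ℂ) - s) ^ 2‖ ≤ 1100 := by
  rw [integral_q hs]
  have e1 : ((1 : ℝ) : ℂ) - s ≠ 0 := sub_ne hs 1
  have e2 : ((-1 : ℝ) : ℂ) - s ≠ 0 := sub_ne hs (-1)
  have e : Fa s 1 - Fa s (-1) =
      -2 * (1 - s ^ 2) + (-4 * s * (-(((-1 : ℝ) : ℂ) - s))) *
        ((((1 : ℝ) : ℂ) - s) * Complex.log (((1 : ℝ) : ℂ) - s)) +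
        (4 * s * (((1 : ℝ) : ℂ) - s)) * (-(((-1 : ℝ) : ℂ) - s) * Complex.log (((-1 : ℝ) : ℂ) - s)) +
        (6 * s ^ 2 - 10 / 3) := by
    unfold Fa
    field_simp
    push_cast
    ring
  rw [e]
  have n1 : ‖((1 : ℝ) : ℂ) - s‖ ≤ 3 := by
    refine (norm_sub_le _ _).trans ?_
    simp
    linarith
  have n2 : ‖((-1 : ℝ) : ℂ) - s‖ ≤ 3 := by
    refine (norm_sub_le _ _).trans ?_
    simp
    linarith
  have l1 := norm_mul_log_le n1
  have l2 := norm_mul_log_le n2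
  have hs0 := norm_nonneg s
  have t1 : ‖-2 * (1 - s ^ 2)‖ ≤ 10 := by
    rw [norm_mul, norm_neg]
    have : ‖1 - s ^ 2‖ ≤ 1 + ‖s‖ ^ 2 := by
      refine (norm_sub_le _ _).trans ?_
      rw [norm_one, norm_pow]
    have h3 : ‖(2 : ℂ)‖ = 2 := by simp
    rw [h3]
    nlinarith
  have t2 : ‖(-4 * s * (-(((-1 : ℝ) : ℂ) - s))) *
        ((((1 : ℝ) : ℂ) - s) * Complex.log (((1 : ℝ) : ℂ) - s))‖ ≤ 24 * 20 := by
    rw [norm_mul, norm_mul, norm_mul, norm_neg, norm_neg, norm_mul]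
    have h3 : ‖(4 : ℂ)‖ = 4 := by simp
    rw [h3]
    have : 4 * ‖s‖ * ‖((-1 : ℝ) : ℂ) - s‖ ≤ 24 := by
      nlinarith [norm_nonneg (((-1 : ℝ) : ℂ) - s)]
    exact mul_le_mul this l1 (by positivity) (by norm_num)
  have t3 : ‖(4 * s * (((1 : ℝ) : ℂ) - s)) *
      (-(((-1 : ℝ) : ℂ) - s) * Complex.log (((-1 : ℝ) : ℂ) - s))‖ ≤ 24 * 20 := by
    rw [norm_mul, norm_mul, norm_mul, norm_mul, norm_neg]
    have h3 : ‖(4 : ℂ)‖ = 4 := by simp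
    rw [h3]
    have : 4 * ‖s‖ * ‖((1 : ℝ) : ℂ) - s‖ ≤ 24 := by
      nlinarith [norm_nonneg (((1 : ℝ) : ℂ) - s)]
    exact mul_le_mul this l2 (by positivity) (by norm_num)
  have t4 : ‖6 * s ^ 2 - 10 / 3‖ ≤ 24 + 10 / 3 := by
    refine (norm_sub_le _ _).trans ?_
    rw [norm_mul, norm_pow]
    have h3 : ‖(6 : ℂ)‖ = 6 := by simp
    have h4 : ‖(10 / 3 : ℂ)‖ = 10 / 3 := by simp
    rw [h3, h4]
    nlinarith
  refine (norm_add_le _ _).trans ?_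
  refine (add_le_add (norm_add_le _ _) le_rfl).trans ?_
  refine (add_le_add (add_le_add (norm_add_le _ _) le_rfl) le_rfl).trans ?_
  linarith

theorem norm_integral_q_large {s : ℂ} (h2 : 2 ≤ ‖s‖) :
    ‖∫ u in (-1 : ℝ)..1, ((1 - (u : ℂ) ^ 2) ^ 2) / ((u : ℂ) - s) ^ 2‖ ≤ 8 / ‖s‖ ^ 2 := by
  have h : ∀ u ∈ Set.uIoc (-1 : ℝ) 1, ‖((1 - (u : ℂ) ^ 2) ^ 2) / ((u : ℂ) - s) ^ 2‖ ≤
      4 / ‖s‖ ^ 2 := by
    intro u hu
    rw [Set.uIoc_of_le (by norm_num)] at hu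
    have hu1 : |u| ≤ 1 := abs_le.2 ⟨hu.1.le, hu.2⟩
    have h3 : ‖(u : ℂ)‖ ≤ 1 := by rwa [Complex.norm_real, Real.norm_eq_abs]
    have h4 : ‖s‖ / 2 ≤ ‖(u : ℂ) - s‖ := by
      have h5 := norm_sub_norm_le s (u : ℂ)
      rw [norm_sub_rev] at h5
      linarith
    have h6 : ‖(1 - (u : ℂ) ^ 2) ^ 2‖ ≤ 1 := by
      have h7 : (1 - (u : ℂ) ^ 2) = ((1 - u ^ 2 : ℝ) : ℂ) := by push_cast; ring
      rw [h7, norm_pow, Complex.norm_real, Real.norm_eq_abs]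
      have h8 : |1 - u ^ 2| ≤ 1 := by
        rw [abs_le]
        have := sq_nonneg u
        have h9 : u ^ 2 ≤ 1 := by rw [← sq_abs]; nlinarith [abs_nonneg u]
        constructor <;> linarith
      exact pow_le_one₀ (abs_nonneg _) h8
    have hs : 0 < ‖s‖ := by linarith
    rw [norm_div, norm_pow ((u : ℂ) - s)]
    calc ‖(1 - (u : ℂ) ^ 2) ^ 2‖ / ‖(u : ℂ) - s‖ ^ 2 ≤ 1 / (‖s‖ / 2) ^ 2 := by gcongr
      _ = 4 / ‖s‖ ^ 2 := by field_simp; norm_num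
  refine (norm_integral_le_of_norm_le_const h).trans ?_
  rw [show |(1 : ℝ) - (-1)| = 2 by norm_num]
  have : 4 / ‖s‖ ^ 2 * 2 = 8 / ‖s‖ ^ 2 := by ring
  rw [this]

/-- **the second Cauchy transform of the bump** -/
theorem norm_integral_q {s : ℂ} (hs : 0 < s.im) :
    ‖∫ u in (-1 : ℝ)..1, ((1 - (u : ℂ) ^ 2) ^ 2) / ((u : ℂ) - s) ^ 2‖ ≤ 5500 / (1 + ‖s‖ ^ 2) := by
  have hs0 := norm_nonneg s
  rcases le_total ‖s‖ 2 with h | h
  · refine (norm_integral_q_small hs h).trans ?_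
    rw [le_div_iff₀ (by positivity)]
    nlinarith
  · refine (norm_integral_q_large h).trans ?_
    rw [div_le_div_iff₀ (by positivity) (by positivity)]
    nlinarith

/-- density of the bump of centre `v₀` and half width `l` -/
noncomputable def rhoB (v₀ l v : ℝ) : ℝ :=
  (15 / (16 * l)) * (max (1 - ((v - v₀) / l) ^ 2) 0) ^ 2

theorem rhoB_nonneg {v₀ l v : ℝ} (hl : 0 < l) : 0 ≤ rhoB v₀ l v := by
  unfold rhoB
  positivity

theorem rhoB_le {v₀ l v : ℝ} (hl : 0 < l) : rhoB v₀ l v ≤ 15 / (16 * l) := by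
  unfold rhoB
  have h1 : max (1 - ((v - v₀) / l) ^ 2) 0 ≤ 1 := by
    refine max_le ?_ zero_le_one
    linarith [sq_nonneg ((v - v₀) / l)]
  have h2 : 0 ≤ max (1 - ((v - v₀) / l) ^ 2) 0 := le_max_right _ _
  have h3 : (max (1 - ((v - v₀) / l) ^ 2) 0) ^ 2 ≤ 1 := pow_le_one₀ h2 h1
  calc _ ≤ (15 / (16 * l)) * 1 := by gcongr
    _ = _ := mul_one _

theorem continuous_rhoB (v₀ l : ℝ) : Continuous (rhoB v₀ l) := by
  unfold rhoB
  fun_prop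

theorem rhoB_eq_zero {v₀ l v : ℝ} (hl : 0 < l) (h : v ∉ Set.Ioc (v₀ - l) (v₀ + l)) :
    rhoB v₀ l v = 0 := by
  have h1 : l ^ 2 ≤ (v - v₀) ^ 2 := by
    by_contra hc
    push Not at hc
    have := abs_lt_of_sq_lt_sq hc hl.le
    rw [abs_lt] at this
    exact h ⟨by linarith [this.1], by linarith [this.2]⟩
  unfold rhoB
  have h2 : 1 - ((v - v₀) / l) ^ 2 ≤ 0 := by
    rw [div_pow, sub_nonpos, le_div_iff₀ (by positivity)]
    linarith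
  rw [max_eq_right h2]
  ring

theorem rhoB_eq {v₀ l v : ℝ} (hl : 0 < l) (h : |v - v₀| ≤ l) :
    rhoB v₀ l v = (15 / (16 * l)) * (1 - ((v - v₀) / l) ^ 2) ^ 2 := by
  unfold rhoB
  rw [max_eq_left]
  have h1 : (v - v₀) ^ 2 ≤ l ^ 2 := by
    rw [← sq_abs (v - v₀)]
    gcongr
  rw [div_pow, sub_nonneg, div_le_iff₀ (by positivity)]
  linarith

/-- change of variables: an integral against the bump -/
theorem integral_rhoB {v₀ l : ℝ} (hl : 0 < l) (f : ℝ → ℂ) :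
    ∫ v, (rhoB v₀ l v : ℂ) * f v =
      (15 / 16 : ℂ) * ∫ u in (-1 : ℝ)..1, (1 - (u : ℂ) ^ 2) ^ 2 * f (v₀ + l * u) := by
  have e1 : ∫ v, (rhoB v₀ l v : ℂ) * f v = ∫ v in (v₀ - l)..(v₀ + l), (rhoB v₀ l v : ℂ) * f v := by
    rw [intervalIntegral.integral_of_le (by linarith)]
    rw [← MeasureTheory.setIntegral_eq_integral_of_forall_compl_eq_zero
      (s := Set.Ioc (v₀ - l) (v₀ + l))]
    intro v hv
    rw [rhoB_eq_zero hl hv]
    simp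
  rw [e1]
  have e2 := intervalIntegral.integral_comp_mul_add
    (fun v => (rhoB v₀ l v : ℂ) * f v) hl.ne' v₀ (a := -1) (b := 1)
  have e3 : l * -1 + v₀ = v₀ - l := by ring
  have e4 : l * 1 + v₀ = v₀ + l := by ring
  rw [e3, e4] at e2
  have e5 : ∫ v in (v₀ - l)..(v₀ + l), (rhoB v₀ l v : ℂ) * f v =
      (l : ℂ) * ∫ u in (-1 : ℝ)..1, (rhoB v₀ l (l * u + v₀) : ℂ) * f (l * u + v₀) := by
    rw [e2, Complex.real_smul]
    push_cast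
    rw [← mul_assoc, mul_inv_cancel₀ (by exact_mod_cast hl.ne'), one_mul]
  rw [e5, ← intervalIntegral.integral_const_mul, ← intervalIntegral.integral_const_mul]
  refine intervalIntegral.integral_congr fun u hu => ?_
  rw [Set.uIcc_of_le (by norm_num)] at hu
  have hu1 : |l * u + v₀ - v₀| ≤ l := by
    rw [add_sub_cancel_right, abs_mul, abs_of_pos hl]
    have : |u| ≤ 1 := abs_le.2 ⟨hu.1, hu.2⟩
    nlinarith
  rw [rhoB_eq hl hu1, add_comm (l * u) v₀]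
  have h3 : (v₀ + l * u - v₀) / l = u := by
    field_simp
    ring
  rw [h3]
  have hlc : (l : ℂ) ≠ 0 := by exact_mod_cast hl.ne'
  push_cast
  field_simp

/-- **the bump of half width `l` at `v₀`**: `‖∫ ρ(v)/(v-s)^2 dv‖ ≤ 5500/(l^2+|s-v₀|^2)` -/
theorem norm_H_le {v₀ l : ℝ} (hl : 0 < l) {s : ℂ} (hs : 0 < s.im) :
    ‖∫ v, (rhoB v₀ l v : ℂ) * (1 / ((v : ℂ) - s) ^ 2)‖ ≤ 5500 / (l ^ 2 + ‖s - v₀‖ ^ 2) := by
  rw [integral_rhoB hl]
  set s' : ℂ := (s - v₀) / l with hs'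
  have hlc : (l : ℂ) ≠ 0 := by exact_mod_cast hl.ne'
  have him : 0 < s'.im := by
    rw [hs', Complex.div_ofReal_im]
    simp
    positivity
  have e1 : ∀ u : ℝ, (1 - (u : ℂ) ^ 2) ^ 2 * (1 / (((v₀ + l * u : ℝ) : ℂ) - s) ^ 2) =
      (1 / (l : ℂ) ^ 2) * ((1 - (u : ℂ) ^ 2) ^ 2 / ((u : ℂ) - s') ^ 2) := by
    intro u
    have h1 : ((v₀ + l * u : ℝ) : ℂ) - s = l * ((u : ℂ) - s') := by
      rw [hs']
      push_cast
      field_simp
      ring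
    rw [h1, mul_pow]
    have h2 : (u : ℂ) - s' ≠ 0 := sub_ne him u
    field_simp
  have e2 : (∫ u in (-1 : ℝ)..1, (1 - (u : ℂ) ^ 2) ^ 2 *
      (fun v : ℝ => 1 / ((v : ℂ) - s) ^ 2) (v₀ + l * u)) =
      ∫ u in (-1 : ℝ)..1, (1 / (l : ℂ) ^ 2) * ((1 - (u : ℂ) ^ 2) ^ 2 / ((u : ℂ) - s') ^ 2) :=
    intervalIntegral.integral_congr fun u _ => e1 u
  rw [e2, intervalIntegral.integral_const_mul, norm_mul, norm_mul]
  have h1 := norm_integral_q him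
  have h2 : ‖(15 / 16 : ℂ)‖ ≤ 1 := by
    rw [norm_div]
    simp
    norm_num
  have h3 : ‖(1 / (l : ℂ) ^ 2)‖ = 1 / l ^ 2 := by
    rw [norm_div, norm_one, norm_pow, Complex.norm_real, Real.norm_eq_abs, abs_of_pos hl]
  rw [h3]
  have h4 : ‖s'‖ ^ 2 = ‖s - v₀‖ ^ 2 / l ^ 2 := by
    rw [hs', norm_div, Complex.norm_real, Real.norm_eq_abs, abs_of_pos hl, div_pow]
  rw [h4] at h1
  calc ‖(15 / 16 : ℂ)‖ * (1 / l ^ 2 *
        ‖∫ u in (-1 : ℝ)..1, ((1 - (u : ℂ) ^ 2) ^ 2) / ((u : ℂ) - s') ^ 2‖)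
      ≤ 1 * (1 / l ^ 2 * (5500 / (1 + ‖s - v₀‖ ^ 2 / l ^ 2))) := by gcongr
    _ = 5500 / (l ^ 2 + ‖s - v₀‖ ^ 2) := by
        field_simp

/-- all non-real `s` -/
theorem norm_H_le' {v₀ l : ℝ} (hl : 0 < l) {s : ℂ} (hs : s.im ≠ 0) :
    ‖∫ v, (rhoB v₀ l v : ℂ) * (1 / ((v : ℂ) - s) ^ 2)‖ ≤ 5500 / (l ^ 2 + ‖s - v₀‖ ^ 2) := by
  rcases lt_or_gt_of_ne hs with h | h
  · have h1 : 0 < ((starRingEnd ℂ) s).im := by
      rw [Complex.conj_im]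
      linarith
    have h2 := norm_H_le (v₀ := v₀) hl h1
    have h3 : (∫ v, (rhoB v₀ l v : ℂ) * (1 / ((v : ℂ) - (starRingEnd ℂ) s) ^ 2)) =
        (starRingEnd ℂ) (∫ v, (rhoB v₀ l v : ℂ) * (1 / ((v : ℂ) - s) ^ 2)) := by
      rw [← integral_conj]
      refine integral_congr_ae (Filter.Eventually.of_forall fun v => ?_)
      simp
    have h4 : ‖(starRingEnd ℂ) s - v₀‖ = ‖s - v₀‖ := by
      rw [← Complex.norm_conj (s - v₀), map_sub, Complex.conj_ofReal]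
    rw [h3, Complex.norm_conj, h4] at h2
    exact h2
  · exact norm_H_le hl h

theorem integral_rhoB_one {v₀ l : ℝ} (hl : 0 < l) : ∫ v, rhoB v₀ l v = 1 := by
  have h := integral_rhoB (v₀ := v₀) hl (fun _ => 1)
  have h1 : (∫ v, (rhoB v₀ l v : ℂ) * 1) = ((∫ v, rhoB v₀ l v : ℝ) : ℂ) := by
    simp only [mul_one]
    exact _root_.integral_ofReal
  have h2 : (∫ u in (-1 : ℝ)..1, (1 - (u : ℂ) ^ 2) ^ 2 * (1 : ℂ)) = (16 / 15 : ℂ) := by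
    have h3 : ∀ u : ℝ, HasDerivAt (fun u : ℝ => (u : ℂ) - 2 / 3 * (u : ℂ) ^ 3 + (u : ℂ) ^ 5 / 5)
        ((1 - (u : ℂ) ^ 2) ^ 2 * (1 : ℂ)) u := by
      intro u
      have hu : HasDerivAt (fun u : ℝ => (u : ℂ)) 1 u := Complex.ofRealCLM.hasDerivAt
      have h4 := (hu.sub ((hu.pow 3).const_mul (2 / 3 : ℂ))).add ((hu.pow 5).div_const 5)
      refine HasDerivAt.congr_deriv h4 ?_
      push_cast
      ring
    rw [integral_eq_sub_of_hasDerivAt (fun u _ => h3 u)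
      (Continuous.intervalIntegrable (by fun_prop) _ _)]
    push_cast
    norm_num
  rw [h1] at h
  rw [h2] at h
  have h5 : ((∫ v, rhoB v₀ l v : ℝ) : ℂ) = ((1 : ℝ) : ℂ) := by
    rw [h]
    push_cast
    norm_num
  exact_mod_cast h5

theorem integrable_rhoB {v₀ l : ℝ} (hl : 0 < l) : Integrable (rhoB v₀ l) := by
  by_contra h
  have h1 := integral_rhoB_one (v₀ := v₀) hl
  rw [integral_undef h] at h1
  exact zero_ne_one h1

/-- the label law: bump of centre `v₀` and half width `l` -/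
noncomputable def nuB (v₀ l : ℝ) : Measure ℝ :=
  volume.withDensity fun v => ENNReal.ofReal (rhoB v₀ l v)

theorem isProbabilityMeasure_nuB {v₀ l : ℝ} (hl : 0 < l) : IsProbabilityMeasure (nuB v₀ l) := by
  refine ⟨?_⟩
  rw [nuB, withDensity_apply _ MeasurableSet.univ, Measure.restrict_univ,
    ← ofReal_integral_eq_lintegral_ofReal (integrable_rhoB hl)
      (Filter.Eventually.of_forall fun v => rhoB_nonneg hl), integral_rhoB_one hl,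
    ENNReal.ofReal_one]

theorem nuB_le {v₀ l : ℝ} (hl : 0 < l) :
    nuB v₀ l ≤ ENNReal.ofReal (15 / (16 * l)) • (volume : Measure ℝ) := by
  rw [nuB, ← withDensity_const]
  refine withDensity_mono (Filter.Eventually.of_forall fun v => ?_)
  exact ENNReal.ofReal_le_ofReal (rhoB_le hl)

theorem measurable_rhoB (v₀ l : ℝ) : Measurable (rhoB v₀ l) := (continuous_rhoB v₀ l).measurable

/-- integrals against the label law -/
theorem integral_nuB {E : Type*} [NormedAddCommGroup E] [NormedSpace ℝ E] {v₀ l : ℝ}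
    (hl : 0 < l) (f : ℝ → E) : ∫ v, f v ∂(nuB v₀ l) = ∫ v, rhoB v₀ l v • f v := by
  rw [nuB, integral_withDensity_eq_integral_toReal_smul
    (measurable_rhoB v₀ l).ennreal_ofReal (Filter.Eventually.of_forall fun _ => ENNReal.ofReal_lt_top)]
  refine integral_congr_ae (Filter.Eventually.of_forall fun v => ?_)
  simp only [ENNReal.toReal_ofReal (rhoB_nonneg hl)]

/-- the support -/
theorem nuB_compl {v₀ l : ℝ} (hl : 0 < l) : nuB v₀ l (Set.Icc (v₀ - l) (v₀ + l))ᶜ = 0 := by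
  rw [nuB, withDensity_apply _ measurableSet_Icc.compl]
  have : ∀ v ∈ (Set.Icc (v₀ - l) (v₀ + l))ᶜ, ENNReal.ofReal (rhoB v₀ l v) = 0 := by
    intro v hv
    rw [rhoB_eq_zero hl fun h => hv ⟨h.1.le, h.2⟩, ENNReal.ofReal_zero]
  rw [setLIntegral_congr_fun measurableSet_Icc.compl this]
  simp

/-- **the second Cauchy transform of the label law**, all non-real `z` -/
theorem norm_cauchy2_le {v₀ l : ℝ} (hl : 0 < l) {z : ℂ} (hz : z.im ≠ 0) :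
    ‖∫ v, 1 / ((v : ℂ) - z) ^ 2 ∂(nuB v₀ l)‖ ≤ 5500 / (l ^ 2 + ‖z - v₀‖ ^ 2) := by
  rw [integral_nuB hl]
  have h := norm_H_le' (v₀ := v₀) hl hz
  simpa only [Complex.real_smul] using h

/-- with `1 + |z|^2` in the denominator -/
theorem norm_cauchy2_le' {v₀ l : ℝ} (hl : 0 < l) :
    ∃ C : ℝ, 0 < C ∧ ∀ z : ℂ, z.im ≠ 0 →
      ‖∫ v, 1 / ((v : ℂ) - z) ^ 2 ∂(nuB v₀ l)‖ ≤ C / (1 + ‖z‖ ^ 2) := by
  refine ⟨5500 * ((1 + 2 * v₀ ^ 2) / l ^ 2 + 2), by positivity, fun z hz => ?_⟩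
  refine (norm_cauchy2_le hl hz).trans ?_
  have h1 : ‖z‖ ^ 2 ≤ 2 * ‖z - v₀‖ ^ 2 + 2 * v₀ ^ 2 := by
    have h2 : ‖z‖ ≤ ‖z - v₀‖ + |v₀| := by
      calc ‖z‖ = ‖(z - v₀) + v₀‖ := by rw [sub_add_cancel]
        _ ≤ ‖z - v₀‖ + ‖(v₀ : ℂ)‖ := norm_add_le _ _
        _ = _ := by rw [Complex.norm_real, Real.norm_eq_abs]
    have h3 := norm_nonneg z
    have h4 := norm_nonneg (z - v₀)
    have h5 := sq_abs v₀
    nlinarith [sq_nonneg (‖z - v₀‖ - |v₀|), abs_nonneg v₀]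
  rw [div_le_div_iff₀ (by positivity) (by positivity)]
  have h6 : 1 + ‖z‖ ^ 2 ≤ ((1 + 2 * v₀ ^ 2) / l ^ 2 + 2) * (l ^ 2 + ‖z - v₀‖ ^ 2) := by
    have h7 : ((1 + 2 * v₀ ^ 2) / l ^ 2 + 2) * (l ^ 2 + ‖z - v₀‖ ^ 2) =
        (1 + 2 * v₀ ^ 2) + 2 * l ^ 2 + ((1 + 2 * v₀ ^ 2) / l ^ 2) * ‖z - v₀‖ ^ 2 +
          2 * ‖z - v₀‖ ^ 2 := by
      field_simp
      ring
    rw [h7]
    have h8 : 0 ≤ ((1 + 2 * v₀ ^ 2) / l ^ 2) * ‖z - v₀‖ ^ 2 := by positivity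
    nlinarith [sq_nonneg l]
  nlinarith

end P365T1.Bump
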