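import Vale.Agent.P365.T1a.Start

/-!
# P365-T1: START with independent labels.
-/

set_option linter.all false

namespace P365T1

open P365L P365O MeasureTheory

section coins

variable {ι Λ K : Type*} [Fintype ι] [DecidableEq ι] [MeasurableSpace Λ] [Fintype Λ]
  [MeasurableSingletonClass Λ] [DecidableEq Λ] [Fintype K] [DecidableEq K]

/-- the bad label at a site, resp. the marked window label of a block -/
def XX (good : Λ) (z : K → ι) (w : K → Λ) : ι ⊕ K → Set (ι → Λ)
  | Sum.inl x => {L | L x ≠ good}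
  | Sum.inr k => {L | L (z k) = w k}

/-- weights of the coins -/
noncomputable def qq (τ : ℝ) (pw : K → ℝ) : ι ⊕ K → ℝ
  | Sum.inl _ => τ
  | Sum.inr k => pw k / τ

/-- site of a coin -/
def sj (z : K → ι) : ι ⊕ K → ι
  | Sum.inl x => x
  | Sum.inr k => z k

/-- constraint at a site -/
def CC (good : Λ) (z : K → ι) (w : K → Λ) (T : Finset (ι ⊕ K)) (x : ι) : Set Λ :=
  {l | (Sum.inl x ∈ T → l ≠ good) ∧ ∀ k, Sum.inr k ∈ T → z k = x → l = w k}

theorem iInter_XX (good : Λ) (z : K → ι) (w : K → Λ) (T : Finset (ι ⊕ K)) :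
    (⋂ j ∈ T, XX good z w j) = Set.pi Set.univ (CC good z w T) := by
  ext L
  simp only [Set.mem_iInter, Set.mem_pi, Set.mem_univ, true_implies, CC, Set.mem_setOf_eq]
  constructor
  · intro h x
    refine ⟨fun hx => h _ hx, fun k hk hz => ?_⟩
    have := h _ hk
    simp only [XX, Set.mem_setOf_eq] at this
    rw [← hz]; exact this
  · intro h j hj
    cases j with
    | inl x => exact (h x).1 hj
    | inr k => exact (h (z k)).2 k hj rfl

theorem coins_prod (κ : ι → Measure Λ) [∀ x, IsProbabilityMeasure (κ x)] (good : Λ)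
    (z : K → ι) (w : K → Λ) (hinj : ∀ k k', z k = z k' → w k = w k' → k = k')
    {τ : ℝ} (hτ : 0 < τ) (hτ1 : τ ≤ 1) (pw : K → ℝ)
    (h1 : ∀ x, (κ x).real {l | l ≠ good} ≤ τ) (h2 : ∀ k, (κ (z k)).real {w k} ≤ pw k)
    (T : Finset (ι ⊕ K)) :
    (Measure.pi κ).real (⋂ j ∈ T, XX good z w j) ≤ ∏ j ∈ T, qq τ pw j := by
  classical
  rw [iInter_XX, Measure.real, Measure.pi_pi, ENNReal.toReal_prod]
  rw [← Finset.prod_fiberwise T (sj z) (qq τ pw)]
  refine Finset.prod_le_prod (fun x _ => ENNReal.toReal_nonneg) fun x _ => ?_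
  change (κ x).real (CC good z w T x) ≤ _
  have hpw : ∀ k, 0 ≤ pw k := fun k => measureReal_nonneg.trans (h2 k)
  have hq0 : ∀ j, 0 ≤ qq (ι := ι) τ pw j := by
    intro j
    cases j with
    | inl x => exact hτ.le
    | inr k => exact div_nonneg (hpw k) hτ.le
  by_cases hex : ∃ k, Sum.inr k ∈ T ∧ z k = x
  · obtain ⟨k, hk, hzk⟩ := hex
    by_cases hex2 : ∃ k', Sum.inr k' ∈ T ∧ z k' = x ∧ k' ≠ k
    · obtain ⟨k', hk', hzk', hne⟩ := hex2
      have : CC good z w T x = ∅ := by
        rw [Set.eq_empty_iff_forall_notMem]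
        rintro l ⟨-, hl⟩
        have e1 := hl k hk hzk
        have e2 := hl k' hk' hzk'
        exact hne (hinj k' k (hzk'.trans hzk.symm) (e2.symm.trans e1))
      rw [this, measureReal_empty]
      exact Finset.prod_nonneg fun j _ => hq0 j
    · push Not at hex2
      have hC : (κ x).real (CC good z w T x) ≤ pw k := by
        refine le_trans ?_ (h2 k)
        rw [hzk]
        exact measureReal_mono (fun l hl => hl.2 k hk hzk)
      refine hC.trans ?_
      have hfil : T.filter (fun j => sj z j = x) =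
          insert (Sum.inr k) (if Sum.inl x ∈ T then {Sum.inl x} else ∅) := by
        ext j
        rw [Finset.mem_filter, Finset.mem_insert]
        cases j with
        | inl y =>
          simp only [sj, reduceCtorEq, false_or]
          split_ifs with h
          · rw [Finset.mem_singleton]
            constructor
            · rintro ⟨-, rfl⟩; rfl
            · rintro h'; obtain rfl := Sum.inl.inj h'; exact ⟨h, rfl⟩
          · constructor
            · rintro ⟨h', rfl⟩; exact absurd h' h
            · intro h'; exact absurd h' (Finset.notMem_empty _)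
        | inr k' =>
          simp only [sj, Sum.inr.injEq]
          constructor
          · rintro ⟨h', hz'⟩
            left
            by_contra hne
            exact hne (hex2 k' h' hz')
          · rintro (rfl | h')
            · exact ⟨hk, hzk⟩
            · split_ifs at h' with h
              · rw [Finset.mem_singleton] at h'; exact absurd h' (by simp)
              · exact absurd h' (Finset.notMem_empty _)
      rw [hfil]
      split_ifs with h
      · rw [Finset.prod_insert (by simp), Finset.prod_singleton]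
        simp only [qq]
        rw [div_mul_cancel₀ _ hτ.ne']
      · rw [Finset.prod_insert (by simp), Finset.prod_empty, mul_one]
        simp only [qq]
        rw [le_div_iff₀ hτ]
        exact mul_le_of_le_one_right (hpw k) hτ1
  · push Not at hex
    by_cases hx : Sum.inl x ∈ T
    · have hfil : T.filter (fun j => sj z j = x) = {Sum.inl x} := by
        ext j
        rw [Finset.mem_filter, Finset.mem_singleton]
        cases j with
        | inl y =>
          constructor
          · rintro ⟨-, h⟩; simp only [sj] at h; rw [h]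
          · intro h'; obtain rfl := Sum.inl.inj h'; exact ⟨hx, rfl⟩
        | inr k =>
          constructor
          · rintro ⟨h, h'⟩; exact absurd h' (hex k h)
          · intro h'; exact absurd h' (by simp)
      rw [hfil, Finset.prod_singleton]
      simp only [qq]
      refine le_trans (measureReal_mono fun l hl => ?_) (h1 x)
      exact hl.1 hx
    · have hfil : T.filter (fun j => sj z j = x) = ∅ := by
        rw [Finset.filter_eq_empty_iff]
        intro j hj h
        cases j with
        | inl y => simp only [sj] at h; rw [h] at hj; exact hx hj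
        | inr k => exact hex k hj h
      rw [hfil, Finset.prod_empty]
      exact measureReal_le_one

end coins

/-- the START majorant -/
noncomputable def FB (N : ℕ) [NeZero N] (S : Finset (Tor N)) : ℝ :=
  ∑ b, 4 * ∑ a, (nrm (a - b) : ℝ) ^ 2 * Real.exp (-2 * Real.log 8 * dg (nbT N) S b a)

variable {N : ℕ} [NeZero N]

theorem FB_nonneg (S : Finset (Tor N)) : 0 ≤ FB N S :=
  Finset.sum_nonneg fun b _ => mul_nonneg (by norm_num)
    (Finset.sum_nonneg fun a _ => mul_nonneg (sq_nonneg _) (Real.exp_pos _).le)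

/-- pointwise: the energy is at most `FB S` as soon as the absorption is `≥ 32` off `S` -/
theorem En_le_FB {W : Tor N → ℂ} (hW : ∀ x, (W x).im < 0) (S : Finset (Tor N))
    (hbig : ∀ x, x ∉ S → 32 ≤ -(W x).im) {f : Tor N → ℝ}
    (hf : ∀ x y, |f x - f y| ≤ nrm (x - y)) : En (AT N) W f ≤ FB N S :=
  start_En hW S (Real.log_nonneg (by norm_num))
    (fun x hx => sinh_log_eight.trans (hbig x hx)) hf

/-- expectation of the majorant: coins version -/
theorem FB_integral_coins {Ω : Type*} [MeasurableSpace Ω] {P : Measure Ω} [IsProbabilityMeasure P]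
    {J : Type*} [Fintype J] (X : J → Set Ω) (hX : ∀ j, MeasurableSet (X j)) (q : J → ℝ)
    (hq0 : ∀ j, 0 ≤ q j)
    (hP : ∀ T : Finset J, P.real (⋂ j ∈ T, X j) ≤ ∏ j ∈ T, q j)
    (bx : J → Finset (Tor N))
    (hsum : ∀ x, ∑ j, (if x ∈ bx j then q j * (4096 : ℝ) ^ (bx j).card else 0) ≤ 1)
    {B : Ω → Finset (Tor N)} (hB : ∀ x, MeasurableSet {ω | x ∈ B ω})
    (hcov : ∀ ω, ∀ x ∈ B ω, ∃ j, ω ∈ X j ∧ x ∈ bx j) :
    ∫ ω, FB N (B ω) ∂P ≤ 22 * Fintype.card (Tor N) := by
  classical
  have hlog : 0 ≤ Real.log 8 := Real.log_nonneg (by norm_num)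
  have h8 : Real.exp (Real.log 8) = 8 := Real.exp_log (by norm_num)
  have hs : ∀ k : ℕ, Real.exp (4 * Real.log 8 * k) = (4096 : ℝ) ^ k := by
    intro k
    have : 4 * Real.log 8 * k = (4 * k : ℕ) * Real.log 8 := by push_cast; ring
    rw [this, Real.exp_nat_mul, h8, pow_mul]
    norm_num
  have he1 : Real.exp 1 ≤ 2.7182818286 := Real.exp_one_lt_d9.le
  have hE : ∀ l : List (Tor N), l.Nodup →
      ∫ ω, Real.exp (4 * Real.log 8 * (l.countP (fun z => decide (z ∈ B ω)) : ℕ)) ∂P ≤
        Real.exp 1 ^ l.length := fun l hl =>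
    coins X hX q hq0 hP bx hB hcov (s := 4 * Real.log 8) (by positivity)
      (fun x => by simp only [hs]; exact hsum x) l hl
  have hq : 4 * Real.exp 1 * Real.exp (-2 * Real.log 8) ≤ 1 / 4 := by
    have h2 : Real.exp (-2 * Real.log 8) = 1 / 64 := by
      have : -2 * Real.log 8 = -((2 : ℕ) * Real.log 8) := by push_cast; ring
      rw [this, Real.exp_neg, Real.exp_nat_mul, h8]
      norm_num
    rw [h2]
    linarith
  have hterm : ∀ b : Tor N, ∫ ω, ∑ a, (nrm (a - b) : ℝ) ^ 2 *
      Real.exp (-2 * Real.log 8 * dg (nbT N) (B ω) b a) ∂P ≤ 2 * Real.exp 1 := by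
    intro b
    refine integral_sum_exp_le (nb := nbT N) (b := b) (conn_tor b) hB
      (g := fun a => nrm (a - b)) (by simp only [sub_self]; exact nrm_zero) ?_ hlog (Δ := 4)
      (fun x => card_nbT_le x) (Real.exp_pos _).le hE (by exact_mod_cast hq)
    intro x y hy
    have h2 : y - b = (x - b) + (y - x) := by abel
    rw [h2]
    exact (nrm_add_le _ _).trans (Nat.add_le_add_left (nrm_nbs (mem_nbT.1 hy)) _)
  have hti : ∀ b : Tor N, Integrable (fun ω => ∑ a, (nrm (a - b) : ℝ) ^ 2 *
      Real.exp (-2 * Real.log 8 * dg (nbT N) (B ω) b a)) P := fun b =>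
    integrable_comp_finset hB (fun S => ∑ a, (nrm (a - b) : ℝ) ^ 2 *
      Real.exp (-2 * Real.log 8 * dg (nbT N) S b a))
  simp only [FB]
  rw [integral_finset_sum _ fun b _ => (hti b).const_mul 4]
  simp only [integral_const_mul]
  calc ∑ b : Tor N, 4 * ∫ ω, ∑ a, (nrm (a - b) : ℝ) ^ 2 *
        Real.exp (-2 * Real.log 8 * dg (nbT N) (B ω) b a) ∂P
      ≤ ∑ b : Tor N, 4 * (2 * Real.exp 1) :=
        Finset.sum_le_sum fun b _ => mul_le_mul_of_nonneg_left (hterm b) (by norm_num)
    _ = (8 * Real.exp 1) * Fintype.card (Tor N) := by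
        rw [Finset.sum_const, Finset.card_univ, nsmul_eq_mul]; ring
    _ ≤ 22 * Fintype.card (Tor N) := by
        refine mul_le_mul_of_nonneg_right ?_ (Nat.cast_nonneg _)
        linarith

section labels

variable {Λ K : Type*} [Fintype Λ] [DecidableEq Λ] [Fintype K] [DecidableEq K]

/-- **START with independent labels**, measure form -/
theorem FB_integral_labels [MeasurableSpace Λ] [MeasurableSingletonClass Λ]
    (κ : Tor N → Measure Λ) [∀ x, IsProbabilityMeasure (κ x)] (good : Λ)
    (z : K → Tor N) (w : K → Λ) (hinj : ∀ k k', z k = z k' → w k = w k' → k = k')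
    {τ : ℝ} (hτ : 0 < τ) (hτ1 : τ ≤ 1) (pw : K → ℝ)
    (h1 : ∀ x, (κ x).real {l | l ≠ good} ≤ τ) (h2 : ∀ k, (κ (z k)).real {w k} ≤ pw k)
    (bx : K → Finset (Tor N))
    (hsum : ∀ x, τ * 4096 +
      ∑ k, (if x ∈ bx k then pw k / τ * (4096 : ℝ) ^ (bx k).card else 0) ≤ 1)
    {B : (Tor N → Λ) → Finset (Tor N)}
    (hcov : ∀ L, ∀ x ∈ B L, L x ≠ good ∨ ∃ k, L (z k) = w k ∧ x ∈ bx k) :
    ∫ L, FB N (B L) ∂(Measure.pi κ) ≤ 22 * Fintype.card (Tor N) := by
  classical
  have hpw : ∀ k, 0 ≤ pw k := fun k => measureReal_nonneg.trans (h2 k)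
  have hmeas : ∀ S : Set (Tor N → Λ), MeasurableSet S := fun S => S.toFinite.measurableSet
  refine FB_integral_coins (XX good z w) (fun j => hmeas _) (qq τ pw) ?_
    (coins_prod κ good z w hinj hτ hτ1 pw h1 h2)
    (fun j => Sum.elim (fun x => {x}) bx j) ?_ (fun x => hmeas _) ?_
  · intro j
    cases j with
    | inl x => exact hτ.le
    | inr k => exact div_nonneg (hpw k) hτ.le
  · intro x
    rw [Fintype.sum_sum_type]
    refine le_trans (le_of_eq ?_) (hsum x)
    congr 1
    · simp only [Sum.elim_inl, Finset.mem_singleton, Finset.card_singleton, pow_one, qq]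
      rw [Finset.sum_ite_eq]
      simp
  · intro L x hx
    rcases hcov L x hx with h | ⟨k, h, h'⟩
    · exact ⟨Sum.inl x, h, Finset.mem_singleton_self x⟩
    · exact ⟨Sum.inr k, h, h'⟩

/-- **START with independent labels**, finite weighted sums -/
theorem FB_sum_labels (p : Tor N → Λ → ℝ) (hp : ∀ x l, 0 ≤ p x l) (hp1 : ∀ x, ∑ l, p x l = 1)
    (good : Λ) (z : K → Tor N) (w : K → Λ) (hinj : ∀ k k', z k = z k' → w k = w k' → k = k')
    {τ : ℝ} (hτ : 0 < τ) (hτ1 : τ ≤ 1)
    (h1 : ∀ x, 1 - p x good ≤ τ)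
    (bx : K → Finset (Tor N))
    (hsum : ∀ x, τ * 4096 +
      ∑ k, (if x ∈ bx k then p (z k) (w k) / τ * (4096 : ℝ) ^ (bx k).card else 0) ≤ 1)
    {B : (Tor N → Λ) → Finset (Tor N)}
    (hcov : ∀ L, ∀ x ∈ B L, L x ≠ good ∨ ∃ k, L (z k) = w k ∧ x ∈ bx k) :
    ∑ L : Tor N → Λ, (∏ x, p x (L x)) * FB N (B L) ≤ 22 * Fintype.card (Tor N) := by
  classical
  letI : MeasurableSpace Λ := ⊤
  haveI : MeasurableSingletonClass Λ := ⟨fun _ => trivial⟩
  let κ : Tor N → Measure Λ := fun x => ∑ l, ENNReal.ofReal (p x l) • Measure.dirac l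
  have hκs : ∀ x (S : Set Λ), (κ x).real S = ∑ l, p x l * S.indicator (fun _ => (1 : ℝ)) l := by
    intro x S
    simp only [κ, Measure.real]
    rw [Measure.finset_sum_apply, ENNReal.toReal_sum (fun l _ => by
      rw [Measure.smul_apply, smul_eq_mul]
      exact ENNReal.mul_ne_top ENNReal.ofReal_ne_top (measure_ne_top _ _))]
    refine Finset.sum_congr rfl fun l _ => ?_
    rw [Measure.smul_apply, smul_eq_mul, ENNReal.toReal_mul, ENNReal.toReal_ofReal (hp x l),
      Measure.dirac_apply' _ (by trivial)]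
    congr 1
    by_cases h : l ∈ S <;> simp [h]
  haveI : ∀ x, IsProbabilityMeasure (κ x) := by
    intro x
    refine ⟨?_⟩
    simp only [κ]
    rw [Measure.finset_sum_apply]
    simp only [Measure.smul_apply, smul_eq_mul, measure_univ, mul_one]
    rw [← ENNReal.ofReal_sum_of_nonneg fun l _ => hp x l, hp1, ENNReal.ofReal_one]
  have hsing : ∀ x l, (κ x).real {l} = p x l := by
    intro x l
    rw [hκs, Finset.sum_eq_single l]
    · simp
    · intro l' _ hne; simp [hne]
    · intro h; exact absurd (Finset.mem_univ _) h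
  have h := FB_integral_labels κ good z w hinj hτ hτ1 (fun k => p (z k) (w k)) ?_
    (fun k => (hsing _ _).le) bx hsum hcov
  · rw [integral_fintype Integrable.of_finite] at h
    refine le_trans (le_of_eq ?_) h
    refine Finset.sum_congr rfl fun L _ => ?_
    rw [smul_eq_mul]
    congr 1
    rw [Measure.real, ← Set.univ_pi_singleton, Measure.pi_pi, ENNReal.toReal_prod]
    exact Finset.prod_congr rfl fun x _ => (hsing x (L x)).symm
  · intro x
    have hc : {l : Λ | l ≠ good} = {good}ᶜ := by ext l; simp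
    rw [hc, measureReal_compl (MeasurableSet.singleton good), hsing, probReal_univ]
    exact h1 x

end labels

end P365T1
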