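import Vale.Agent.P365.T1a.Cost

/-!
# P365-T1: a smooth law which is close to the uniform law.

`nuS lam l` = average over the centre `c ∈ [-(lam-l), lam-l]` of the bump `nuB c l`.
`unifL lam = (1 - l/lam) nuS + (l/lam) nuR`.
-/

set_option linter.all false

namespace P365T1

open P365L P365O Matrix Complex MeasureTheory P365T1.Bump
open scoped ComplexConjugate ENNReal

/-- centres -/
noncomputable def muc (lam l : ℝ) : Measure ℝ := volume.restrict (Set.Icc (-(lam - l)) (lam - l))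

/-- values -/
noncomputable def muv (lam : ℝ) : Measure ℝ := volume.restrict (Set.Icc (-lam) lam)

instance (lam l : ℝ) : IsFiniteMeasure (muc lam l) := by
  unfold muc
  infer_instance

instance (lam : ℝ) : IsFiniteMeasure (muv lam) := by
  unfold muv
  infer_instance

/-- the uniform law on `[-lam, lam]` -/
noncomputable def unifL (lam : ℝ) : Measure ℝ := ENNReal.ofReal (1 / (2 * lam)) • muv lam

/-- density of the smooth law -/
noncomputable def rhoS (lam l v : ℝ) : ℝ := (2 * (lam - l))⁻¹ * ∫ c, rhoB c l v ∂(muc lam l)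

theorem rhoB_eq_shift (c l v : ℝ) : rhoB c l v = rhoB 0 l (v - c) := by
  rw [rhoB, rhoB, sub_zero]

theorem continuous_rhoB2 (l : ℝ) : Continuous fun p : ℝ × ℝ => rhoB p.1 l p.2 := by
  have h : (fun p : ℝ × ℝ => rhoB p.1 l p.2) = fun p => rhoB 0 l (p.2 - p.1) := by
    funext p
    exact rhoB_eq_shift _ _ _
  rw [h]
  exact (continuous_rhoB 0 l).comp (continuous_snd.sub continuous_fst)

theorem integrable_rhoB_c {lam l : ℝ} (hl : 0 < l) (v : ℝ) :
    Integrable (fun c => rhoB c l v) (muc lam l) := by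
  refine Integrable.of_bound
    ((continuous_rhoB2 l).comp (continuous_id.prodMk continuous_const)).aestronglyMeasurable
    (15 / (16 * l)) (Filter.Eventually.of_forall fun c => ?_)
  rw [Real.norm_eq_abs, abs_of_nonneg (rhoB_nonneg hl)]
  exact rhoB_le hl

theorem integral_rhoB_c_le {lam l : ℝ} (hl : 0 < l) (v : ℝ) :
    ∫ c, rhoB c l v ∂(muc lam l) ≤ 1 := by
  have h1 : ∫ c, rhoB c l v = 1 := by
    have h2 : ∀ c, rhoB c l v = rhoB 0 l (v - c) := fun c => rhoB_eq_shift _ _ _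
    simp only [h2]
    rw [integral_sub_left_eq_self (fun t => rhoB 0 l t) volume v]
    exact integral_rhoB_one hl
  have hi : Integrable (fun c => rhoB c l v) := by
    by_contra h
    rw [integral_undef h] at h1
    exact zero_ne_one h1
  rw [← h1, muc]
  exact setIntegral_le_integral hi (Filter.Eventually.of_forall fun c => rhoB_nonneg hl)

theorem rhoS_nonneg {lam l : ℝ} (hl : 0 < l) (h : l < lam) (v : ℝ) : 0 ≤ rhoS lam l v :=
  mul_nonneg (inv_nonneg.2 (by linarith)) (integral_nonneg fun c => rhoB_nonneg hl)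

theorem rhoS_le {lam l : ℝ} (hl : 0 < l) (h : l < lam) (v : ℝ) :
    rhoS lam l v ≤ (2 * (lam - l))⁻¹ := by
  have h1 := integral_rhoB_c_le (lam := lam) hl v
  have h2 : (0 : ℝ) ≤ (2 * (lam - l))⁻¹ := inv_nonneg.2 (by linarith)
  calc rhoS lam l v ≤ (2 * (lam - l))⁻¹ * 1 := mul_le_mul_of_nonneg_left h1 h2
    _ = _ := mul_one _

theorem measurable_rhoS (lam l : ℝ) : Measurable (rhoS lam l) := by
  unfold rhoS
  refine Measurable.const_mul ?_ _
  have h := (continuous_rhoB2 l).measurable.stronglyMeasurable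
  have h2 : StronglyMeasurable fun v : ℝ => ∫ c, rhoB c l v ∂(muc lam l) := by
    refine StronglyMeasurable.integral_prod_left (f := fun c v => rhoB c l v) ?_
    exact h
  exact h2.measurable

/-- the smooth law -/
noncomputable def nuS (lam l : ℝ) : Measure ℝ :=
  (muv lam).withDensity fun v => ENNReal.ofReal (rhoS lam l v)

theorem integral_nuS {E : Type*} [NormedAddCommGroup E] [NormedSpace ℝ E] {lam l : ℝ}
    (hl : 0 < l) (h : l < lam) (g : ℝ → E) :
    ∫ v, g v ∂(nuS lam l) = ∫ v, rhoS lam l v • g v ∂(muv lam) := by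
  rw [nuS, integral_withDensity_eq_integral_toReal_smul
    (measurable_rhoS lam l).ennreal_ofReal (Filter.Eventually.of_forall fun _ => ENNReal.ofReal_lt_top)]
  refine integral_congr_ae (Filter.Eventually.of_forall fun v => ?_)
  simp only [ENNReal.toReal_ofReal (rhoS_nonneg hl h v)]

/-- for an admissible centre the bump lives inside `[-lam, lam]` -/
theorem integral_bump_muv {E : Type*} [NormedAddCommGroup E] [NormedSpace ℝ E] {lam l c : ℝ}
    (hl : 0 < l) (hc : c ∈ Set.Icc (-(lam - l)) (lam - l)) (g : ℝ → E) :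
    ∫ v, rhoB c l v • g v ∂(muv lam) = ∫ v, g v ∂(nuB c l) := by
  rw [integral_nuB hl, muv]
  refine setIntegral_eq_integral_of_forall_compl_eq_zero fun v hv => ?_
  rw [rhoB_eq_zero hl, zero_smul]
  intro h
  apply hv
  exact ⟨by linarith [h.1, hc.1], by linarith [h.2, hc.2]⟩

/-- **integrals against the smooth law are averages of integrals against bumps** -/
theorem integral_nuS_eq {E : Type*} [NormedAddCommGroup E] [NormedSpace ℝ E] [CompleteSpace E]
    {lam l : ℝ} (hl : 0 < l) (h : l < lam) {g : ℝ → E} (hg : Continuous g) {B : ℝ}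
    (hB : ∀ v, ‖g v‖ ≤ B) :
    ∫ v, g v ∂(nuS lam l) = (2 * (lam - l))⁻¹ • ∫ c, ∫ v, g v ∂(nuB c l) ∂(muc lam l) := by
  have h1 : ∫ c, ∫ v, g v ∂(nuB c l) ∂(muc lam l) =
      ∫ c, ∫ v, rhoB c l v • g v ∂(muv lam) ∂(muc lam l) := by
    rw [muc]
    refine setIntegral_congr_fun measurableSet_Icc fun c hc => ?_
    exact (integral_bump_muv hl hc g).symm
  have h2 : Integrable (Function.uncurry fun c v => rhoB c l v • g v)
      ((muc lam l).prod (muv lam)) := by
    refine Integrable.of_bound ?_ (15 / (16 * l) * B) (Filter.Eventually.of_forall fun p => ?_)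
    · exact ((continuous_rhoB2 l).smul (hg.comp continuous_snd)).aestronglyMeasurable
    · simp only [Function.uncurry]
      rw [norm_smul, Real.norm_eq_abs, abs_of_nonneg (rhoB_nonneg hl)]
      exact mul_le_mul (rhoB_le hl) (hB _) (norm_nonneg _) (by positivity)
  rw [h1, integral_integral_swap h2, integral_nuS hl h, ← integral_smul]
  refine integral_congr_ae (Filter.Eventually.of_forall fun v => ?_)
  simp only
  rw [rhoS, integral_smul_const, smul_smul]

theorem isProbabilityMeasure_nuS {lam l : ℝ} (hl : 0 < l) (h : l < lam) :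
    IsProbabilityMeasure (nuS lam l) := by
  have h1 := integral_nuS_eq hl h (g := fun _ : ℝ => (1 : ℝ)) continuous_const (B := 1)
    (fun v => by simp)
  have h2 : ∫ c, ∫ v, (1 : ℝ) ∂(nuB c l) ∂(muc lam l) = 2 * (lam - l) := by
    have h3 : ∀ c, ∫ v, (1 : ℝ) ∂(nuB c l) = 1 := by
      intro c
      haveI := isProbabilityMeasure_nuB (v₀ := c) hl
      simp
    simp only [h3]
    rw [muc, integral_const, smul_eq_mul, mul_one, measureReal_restrict_apply MeasurableSet.univ,
      Set.univ_inter, Real.volume_real_Icc_of_le (by linarith)]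
    ring
  rw [h2, smul_eq_mul, inv_mul_cancel₀ (by linarith)] at h1
  have h4 : ∫ v, (1 : ℝ) ∂(nuS lam l) = (nuS lam l).real Set.univ := by simp
  rw [h4] at h1
  refine ⟨?_⟩
  rw [measureReal_def] at h1
  have h5 : nuS lam l Set.univ ≠ ⊤ := by
    intro h6
    rw [h6] at h1
    simp at h1
  rw [← ENNReal.toReal_eq_one_iff]
  exact h1

theorem nuS_le {lam l : ℝ} (hl : 0 < l) (h : l < lam) :
    nuS lam l ≤ ENNReal.ofReal ((2 * (lam - l))⁻¹) • muv lam := by
  rw [nuS, ← withDensity_const]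
  exact withDensity_mono (Filter.Eventually.of_forall fun v =>
    ENNReal.ofReal_le_ofReal (rhoS_le hl h v))

/-- **the second Cauchy transform of the smooth law** -/
theorem norm_cauchy2_nuS {lam l : ℝ} (hl : 0 < l) (h : l < lam) {z : ℂ} (hz : z.im ≠ 0) :
    ‖∫ v, 1 / ((v : ℂ) - z) ^ 2 ∂(nuS lam l)‖ ≤
      5500 * ((1 + 2 * lam ^ 2) / l ^ 2 + 2) / (1 + ‖z‖ ^ 2) := by
  have hne : ∀ v : ℝ, (v : ℂ) - z ≠ 0 := by
    intro v hv
    apply hz
    have := congrArg Complex.im hv
    simpa using this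
  have hcont : Continuous fun v : ℝ => 1 / ((v : ℂ) - z) ^ 2 :=
    continuous_const.div ((Complex.continuous_ofReal.sub continuous_const).pow 2)
      (fun v => pow_ne_zero 2 (hne v))
  have hB : ∀ v : ℝ, ‖1 / ((v : ℂ) - z) ^ 2‖ ≤ (|z.im|⁻¹) ^ 2 := by
    intro v
    rw [norm_div, norm_one, norm_pow, one_div, ← inv_pow]
    have h1 := Complex.abs_im_le_norm ((v : ℂ) - z)
    rw [Complex.sub_im, Complex.ofReal_im, zero_sub, abs_neg] at h1
    have h2 : 0 < |z.im| := abs_pos.2 hz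
    gcongr
  rw [integral_nuS_eq hl h hcont hB, norm_smul, Real.norm_eq_abs,
    abs_of_nonneg (inv_nonneg.2 (by linarith))]
  set K : ℝ := 5500 * ((1 + 2 * lam ^ 2) / l ^ 2 + 2) / (1 + ‖z‖ ^ 2) with hK
  have h1 : ‖∫ c, ∫ v, 1 / ((v : ℂ) - z) ^ 2 ∂(nuB c l) ∂(muc lam l)‖ ≤
      K * (2 * (lam - l)) := by
    rw [muc]
    have h2 := norm_setIntegral_le_of_norm_le_const (μ := volume)
      (s := Set.Icc (-(lam - l)) (lam - l))
      (f := fun c => ∫ v, 1 / ((v : ℂ) - z) ^ 2 ∂(nuB c l)) (C := K)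
      (by rw [Real.volume_Icc]; exact ENNReal.ofReal_lt_top) ?_
    · rw [Real.volume_real_Icc_of_le (by linarith)] at h2
      refine h2.trans (le_of_eq ?_)
      ring
    · intro c hc
      refine (norm_cauchy2_le (v₀ := c) hl hz).trans ?_
      rw [hK]
      have h3 : ‖z‖ ^ 2 ≤ 2 * ‖z - c‖ ^ 2 + 2 * lam ^ 2 := by
        have h4 : ‖z‖ ≤ ‖z - c‖ + |c| := by
          calc ‖z‖ = ‖(z - c) + c‖ := by rw [sub_add_cancel]
            _ ≤ ‖z - c‖ + ‖(c : ℂ)‖ := norm_add_le _ _
            _ = _ := by rw [Complex.norm_real, Real.norm_eq_abs]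
        have h5 := norm_nonneg z
        have h6 := norm_nonneg (z - c)
        have h7 : |c| ≤ lam := abs_le.2 ⟨by linarith [hc.1], by linarith [hc.2]⟩
        nlinarith [sq_nonneg (‖z - c‖ - |c|), abs_nonneg c]
      rw [div_le_div_iff₀ (by positivity) (by positivity)]
      have h8 : ((1 + 2 * lam ^ 2) / l ^ 2 + 2) * (l ^ 2 + ‖z - c‖ ^ 2) =
          (1 + 2 * lam ^ 2) + 2 * l ^ 2 + ((1 + 2 * lam ^ 2) / l ^ 2) * ‖z - c‖ ^ 2 +
            2 * ‖z - c‖ ^ 2 := by
        field_simp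
        ring
      have h9 : 0 ≤ ((1 + 2 * lam ^ 2) / l ^ 2) * ‖z - c‖ ^ 2 := by positivity
      have h10 : 1 + ‖z‖ ^ 2 ≤ ((1 + 2 * lam ^ 2) / l ^ 2 + 2) * (l ^ 2 + ‖z - c‖ ^ 2) := by
        rw [h8]
        nlinarith [sq_nonneg l]
      linarith
  have h2 : (0 : ℝ) < 2 * (lam - l) := by linarith
  calc (2 * (lam - l))⁻¹ * ‖∫ c, ∫ v, 1 / ((v : ℂ) - z) ^ 2 ∂(nuB c l) ∂(muc lam l)‖
      ≤ (2 * (lam - l))⁻¹ * (K * (2 * (lam - l))) := by gcongr
    _ = K := by rw [mul_comm K, ← mul_assoc, inv_mul_cancel₀ h2.ne', one_mul]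

/-- the rest law -/
noncomputable def nuR (lam l : ℝ) : Measure ℝ :=
  (muv lam).withDensity fun v => ENNReal.ofReal (l⁻¹ * (1 / 2 - (lam - l) * rhoS lam l v))

theorem restDensity_nonneg {lam l : ℝ} (hl : 0 < l) (h : l < lam) (v : ℝ) :
    0 ≤ l⁻¹ * (1 / 2 - (lam - l) * rhoS lam l v) := by
  refine mul_nonneg (inv_nonneg.2 hl.le) ?_
  have h1 := rhoS_le hl h v
  have h2 : 0 < lam - l := by linarith
  have h3 : (lam - l) * rhoS lam l v ≤ (lam - l) * (2 * (lam - l))⁻¹ :=
    mul_le_mul_of_nonneg_left h1 h2.le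
  have h4 : (lam - l) * (2 * (lam - l))⁻¹ = 1 / 2 := by field_simp
  linarith

theorem nuR_le {lam l : ℝ} (hl : 0 < l) (h : l < lam) :
    nuR lam l ≤ ENNReal.ofReal (1 / (2 * l)) • muv lam := by
  rw [nuR, ← withDensity_const]
  refine withDensity_mono (Filter.Eventually.of_forall fun v => ENNReal.ofReal_le_ofReal ?_)
  have h1 := rhoS_nonneg hl h v
  have h2 : 0 < lam - l := by linarith
  have h3 : l⁻¹ * (1 / 2 - (lam - l) * rhoS lam l v) ≤ l⁻¹ * (1 / 2) := by
    refine mul_le_mul_of_nonneg_left ?_ (inv_nonneg.2 hl.le)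
    nlinarith
  refine h3.trans (le_of_eq ?_)
  field_simp

/-- **decomposition of the uniform law** -/
theorem unifL_eq {lam l : ℝ} (hl : 0 < l) (h : l < lam) :
    unifL lam = ENNReal.ofReal (1 - l / lam) • nuS lam l +
      ENNReal.ofReal (l / lam) • nuR lam l := by
  have hlam : 0 < lam := hl.trans h
  have hm1 : Measurable fun v => ENNReal.ofReal (rhoS lam l v) :=
    (measurable_rhoS lam l).ennreal_ofReal
  have hm2 : Measurable fun v => ENNReal.ofReal (l⁻¹ * (1 / 2 - (lam - l) * rhoS lam l v)) :=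
    ((((measurable_rhoS lam l).const_mul _).const_sub _).const_mul _).ennreal_ofReal
  have h0 : (0 : ℝ) ≤ 1 - l / lam := by
    rw [sub_nonneg, div_le_one hlam]
    exact h.le
  rw [nuS, nuR, ← withDensity_smul _ hm1, ← withDensity_smul _ hm2,
    ← withDensity_add_left (hm1.const_smul _), unifL, ← withDensity_const]
  refine withDensity_congr_ae (Filter.Eventually.of_forall fun v => ?_)
  simp only [Pi.add_apply, Pi.smul_apply, smul_eq_mul]
  rw [← ENNReal.ofReal_mul h0, ← ENNReal.ofReal_mul (by positivity),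
    ← ENNReal.ofReal_add (mul_nonneg h0 (rhoS_nonneg hl h v))
      (mul_nonneg (by positivity) (restDensity_nonneg hl h v))]
  congr 1
  field_simp
  ring

theorem isProbabilityMeasure_unifL {lam : ℝ} (hlam : 0 < lam) :
    IsProbabilityMeasure (unifL lam) := by
  refine ⟨?_⟩
  rw [unifL, muv, Measure.smul_apply, Measure.restrict_apply_univ, Real.volume_Icc, smul_eq_mul,
    ← ENNReal.ofReal_mul (by positivity)]
  rw [show 1 / (2 * lam) * (lam - -lam) = 1 by field_simp; ring, ENNReal.ofReal_one]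

theorem isProbabilityMeasure_nuR {lam l : ℝ} (hl : 0 < l) (h : l < lam) :
    IsProbabilityMeasure (nuR lam l) := by
  have hlam : 0 < lam := hl.trans h
  haveI := isProbabilityMeasure_unifL hlam
  haveI := isProbabilityMeasure_nuS hl h
  have h1 := congrArg (fun μ : Measure ℝ => μ Set.univ) (unifL_eq hl h)
  simp only [measure_univ, Measure.add_apply, Measure.smul_apply, smul_eq_mul, mul_one] at h1
  have h0 : (0 : ℝ) ≤ 1 - l / lam := by
    rw [sub_nonneg, div_le_one hlam]
    exact h.le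
  have h2 : (1 : ℝ≥0∞) = ENNReal.ofReal (1 - l / lam) + ENNReal.ofReal (l / lam) := by
    rw [← ENNReal.ofReal_add h0 (by positivity)]
    simp
  have h3 : ENNReal.ofReal (l / lam) * nuR lam l Set.univ = ENNReal.ofReal (l / lam) := by
    have h4 : ENNReal.ofReal (1 - l / lam) + ENNReal.ofReal (l / lam) * nuR lam l Set.univ =
        ENNReal.ofReal (1 - l / lam) + ENNReal.ofReal (l / lam) := h1.symm.trans h2
    exact (ENNReal.add_right_inj ENNReal.ofReal_ne_top).1 h4
  refine ⟨?_⟩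
  have h5 : ENNReal.ofReal (l / lam) ≠ 0 := by
    rw [Ne, ENNReal.ofReal_eq_zero, not_le]
    positivity
  have h6 : ENNReal.ofReal (l / lam) * nuR lam l Set.univ = ENNReal.ofReal (l / lam) * 1 := by
    rw [h3, mul_one]
  exact (ENNReal.mul_right_inj h5 ENNReal.ofReal_ne_top).1 h6

/-- **cost, any law with a quadratically decaying second Cauchy transform** -/
theorem cost_of_kernel {ν : Measure ℝ} [IsProbabilityMeasure ν] {C : ℝ} (hC : 0 ≤ C)
    (hk : ∀ z : ℂ, z.im ≠ 0 → ‖∫ v, 1 / ((v : ℂ) - z) ^ 2 ∂ν‖ ≤ C / (1 + ‖z‖ ^ 2))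
    {κ : Type*} [Fintype κ] [DecidableEq κ] {A : Matrix κ κ ℝ} {W : κ → ℂ}
    (hA : A.IsSymm) (hW : ∀ x, (W x).im < 0) (f : κ → ℝ) (z : κ) (E : ℝ) :
    -(∫ v, dEn A (rez W z (v - E)) f z ∂ν) ≤
      20 * C * (1 + E ^ 2) * (Nf A W f z / (1 + ‖sg A W z‖ ^ 2)) := by
  have hm : AEMeasurable (fun v : ℝ => v - E) ν := (measurable_id.sub_const E).aemeasurable
  haveI : IsProbabilityMeasure (ν.map fun v => v - E) := Measure.isProbabilityMeasure_map hm
  have hcont : Continuous fun u => dEn A (rez W z u) f z := by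
    simp only [dEn_rez hA hW]
    refine (continuous_const.mul ((continuous_inv_sub hA hW z).norm.pow 4)).add
      (Complex.continuous_re.comp (continuous_const.mul ?_))
    simp only [one_div, ← inv_pow]
    exact (continuous_inv_sub hA hW z).pow 2
  have h1 := neg_integral_dEn_le (ν := ν.map fun v => v - E) hA hW f z
  rw [integral_map hm hcont.aestronglyMeasurable,
    integral_map hm (integrable_inv2 hA hW z).aestronglyMeasurable] at h1
  refine h1.trans ?_
  have hz : (sz A W z + E).im ≠ 0 := by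
    rw [Complex.add_im, Complex.ofReal_im, add_zero]
    exact (sz_im_pos hA hW z).ne'
  have h2 := hk (sz A W z + E) hz
  have h3 : ∀ v : ℝ, 1 / (((v - E : ℝ) : ℂ) - sz A W z) ^ 2 =
      1 / ((v : ℂ) - (sz A W z + E)) ^ 2 := by
    intro v
    congr 2
    push_cast
    ring
  simp only [h3]
  have h4 := norm_sg_le_norm_sz hA hW z
  have h5 : ‖sz A W z‖ ^ 2 ≤ 2 * ‖sz A W z + E‖ ^ 2 + 2 * E ^ 2 := by
    have h6 : ‖sz A W z‖ ≤ ‖sz A W z + E‖ + |E| := by
      calc ‖sz A W z‖ = ‖(sz A W z + E) - E‖ := by rw [add_sub_cancel_right]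
        _ ≤ ‖sz A W z + E‖ + ‖(E : ℂ)‖ := norm_sub_le _ _
        _ = _ := by rw [Complex.norm_real, Real.norm_eq_abs]
    have h7 := norm_nonneg (sz A W z)
    have h8 := norm_nonneg (sz A W z + E)
    have h9 := sq_abs E
    nlinarith [sq_nonneg (‖sz A W z + E‖ - |E|), abs_nonneg E]
  have h6 : 1 + ‖sg A W z‖ ^ 2 ≤ 2 * (1 + E ^ 2) * (1 + ‖sz A W z + E‖ ^ 2) := by
    nlinarith [sq_nonneg E, sq_nonneg ‖sz A W z + E‖,
      mul_nonneg (sq_nonneg E) (sq_nonneg ‖sz A W z + E‖)]
  have h7 : C / (1 + ‖sz A W z + E‖ ^ 2) ≤ 2 * (1 + E ^ 2) * C / (1 + ‖sg A W z‖ ^ 2) := by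
    rw [div_le_div_iff₀ (by positivity) (by positivity)]
    nlinarith
  have h8 := Nf_nonneg hW (A := A) f z
  calc 10 * Nf A W f z * ‖∫ v, 1 / ((v : ℂ) - (sz A W z + E)) ^ 2 ∂ν‖
      ≤ 10 * Nf A W f z * (2 * (1 + E ^ 2) * C / (1 + ‖sg A W z‖ ^ 2)) :=
        mul_le_mul_of_nonneg_left (h2.trans h7) (by positivity)
    _ = _ := by ring

/-- constant of the smooth law -/
noncomputable def CS (lam l : ℝ) : ℝ := 5500 * ((1 + 2 * lam ^ 2) / l ^ 2 + 2)

/-- **cost, smooth law** -/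
theorem cost_nuS {lam l : ℝ} (hl : 0 < l) (h : l < lam)
    {κ : Type*} [Fintype κ] [DecidableEq κ] {A : Matrix κ κ ℝ} {W : κ → ℂ}
    (hA : A.IsSymm) (hW : ∀ x, (W x).im < 0) (f : κ → ℝ) (z : κ) (E : ℝ) :
    -(∫ v, dEn A (rez W z (v - E)) f z ∂(nuS lam l)) ≤
      20 * CS lam l * (1 + E ^ 2) * (Nf A W f z / (1 + ‖sg A W z‖ ^ 2)) := by
  haveI := isProbabilityMeasure_nuS hl h
  exact cost_of_kernel (C := CS lam l) (by unfold CS; positivity) (fun z hz => norm_cauchy2_nuS hl h hz) hA hW f z E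

end P365T1
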