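import Vale.Agent.P365.Torus.Base

/-!
# P365-T1, START: the first-passage pseudometric of a bad set and its first-moment bound

`B` = bad (transparent) sites.  `dg nb B b a` = least number of good bonds (both end points
outside `B`) on a self-avoiding path from `b` to `a`.  It is constant on bonds which touch `B`,
1-Lipschitz on the others, and `E ∑ g(a)² exp (-2 μ dg b a) ≤ 2 c` as soon as
`E exp (4 μ |π ∩ B|) ≤ c^(n+1)` for every self-avoiding `π` with `n+1` sites and
`Δ c exp (-2 μ) ≤ 1/4`.
-/

set_option linter.all false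

namespace P365T1

open Finset MeasureTheory

variable {ι : Type*} [DecidableEq ι]

/-- lists of `n+1` sites with last element `b`, each element being in `nb` of the following one -/
def Qp (nb : ι → Finset ι) (b : ι) : ℕ → Finset (List ι)
  | 0 => {[b]}
  | n + 1 => (Qp nb b n).biUnion fun l => (nb (l.headD b)).image (fun y => y :: l)

theorem mem_Qp_zero {nb : ι → Finset ι} {b : ι} {l : List ι} : l ∈ Qp nb b 0 ↔ l = [b] := by
  simp [Qp]

theorem mem_Qp_succ {nb : ι → Finset ι} {b : ι} {n : ℕ} {l : List ι} :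
    l ∈ Qp nb b (n + 1) ↔ ∃ l' ∈ Qp nb b n, ∃ y ∈ nb (l'.headD b), y :: l' = l := by
  simp [Qp]

theorem card_Qp_le {nb : ι → Finset ι} {Δ : ℕ} (h : ∀ x, (nb x).card ≤ Δ) (b : ι) (n : ℕ) :
    (Qp nb b n).card ≤ Δ ^ n := by
  induction n with
  | zero => simp [Qp]
  | succ n ih =>
    rw [Qp]
    refine card_biUnion_le.trans ?_
    calc ∑ l ∈ Qp nb b n, ((nb (l.headD b)).image (fun y => y :: l)).card
        ≤ ∑ l ∈ Qp nb b n, Δ := Finset.sum_le_sum fun l _ => card_image_le.trans (h _)
      _ = (Qp nb b n).card * Δ := by rw [sum_const, smul_eq_mul]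
      _ ≤ Δ ^ n * Δ := Nat.mul_le_mul_right _ ih
      _ = Δ ^ (n + 1) := (pow_succ _ _).symm

theorem length_of_mem_Qp {nb : ι → Finset ι} {b : ι} {n : ℕ} {l : List ι} (h : l ∈ Qp nb b n) :
    l.length = n + 1 := by
  induction n generalizing l with
  | zero => rw [mem_Qp_zero] at h; rw [h]; rfl
  | succ n ih =>
    rw [mem_Qp_succ] at h
    obtain ⟨l', h1, y, -, rfl⟩ := h
    rw [List.length_cons, ih h1]

/-- number of good bonds of a list -/
def gd (B : Finset ι) : List ι → ℕ
  | [] => 0
  | [_] => 0
  | x :: y :: t => (if x ∈ B ∨ y ∈ B then 0 else 1) + gd B (y :: t)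

theorem gd_cons_le (B : Finset ι) (x : ι) (l : List ι) : gd B l ≤ gd B (x :: l) := by
  cases l with
  | nil => simp [gd]
  | cons y t => simp [gd]

theorem gd_cons_le' (B : Finset ι) (x : ι) (l : List ι) : gd B (x :: l) ≤ gd B l + 1 := by
  cases l with
  | nil => simp [gd]
  | cons y t => simp only [gd]; split_ifs <;> omega

/-- good bonds are at least all bonds minus twice the bad sites -/
theorem length_le_gd (B : Finset ι) (x : ι) (t : List ι) :
    (x :: t).length + (if x ∈ B then 1 else 0) ≤
      gd B (x :: t) + 2 * (x :: t).countP (fun z => decide (z ∈ B)) + 1 := by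
  induction t generalizing x with
  | nil => by_cases hx : x ∈ B <;> simp [gd, hx]
  | cons y t ih =>
    have h := ih y
    rw [List.countP_cons]
    simp only [gd, List.length_cons] at h ⊢
    by_cases hx : x ∈ B <;> by_cases hy : y ∈ B <;> simp [hx, hy] at h ⊢ <;> omega

/-- suffix starting at a given site -/
theorem exists_suffix {nb : ι → Finset ι} {b : ι} (B : Finset ι) {n : ℕ} {l : List ι}
    (h : l ∈ Qp nb b n) (hn : l.Nodup) {y : ι} (hy : y ∈ l) :
    ∃ m, ∃ l' ∈ Qp nb b m, l'.Nodup ∧ l'.headD b = y ∧ gd B l' ≤ gd B l := by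
  induction n generalizing l with
  | zero =>
    rw [mem_Qp_zero] at h
    subst h
    rw [List.mem_singleton] at hy
    exact ⟨0, [b], mem_Qp_zero.2 rfl, hn, hy.symm, le_rfl⟩
  | succ n ih =>
    have h0 := h
    rw [mem_Qp_succ] at h
    obtain ⟨l', h1, z, hz, rfl⟩ := h
    rw [List.mem_cons] at hy
    rcases hy with rfl | hy
    · exact ⟨n + 1, y :: l', h0, hn, rfl, le_rfl⟩
    · obtain ⟨m, l'', h2, h3, h4, h5⟩ := ih h1 (List.nodup_cons.1 hn).2 hy
      exact ⟨m, l'', h2, h3, h4, h5.trans (gd_cons_le B z l')⟩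

/-- `a` can be reached from `b` on a self-avoiding path with at most `k` good bonds -/
def Rch (nb : ι → Finset ι) (B : Finset ι) (b : ι) (k : ℕ) (a : ι) : Prop :=
  ∃ n, ∃ l ∈ Qp nb b n, l.Nodup ∧ l.headD b = a ∧ gd B l ≤ k

theorem Rch.refl (nb : ι → Finset ι) (B : Finset ι) (b : ι) : Rch nb B b 0 b :=
  ⟨0, [b], mem_Qp_zero.2 rfl, by simp, rfl, le_rfl⟩

theorem Rch.mono {nb : ι → Finset ι} {B : Finset ι} {b : ι} {k k' : ℕ} {a : ι}
    (h : Rch nb B b k a) (hk : k ≤ k') : Rch nb B b k' a := by
  obtain ⟨n, l, h1, h2, h3, h4⟩ := h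
  exact ⟨n, l, h1, h2, h3, h4.trans hk⟩

theorem Rch.step {nb : ι → Finset ι} {B : Finset ι} {b : ι} {k : ℕ} {x y : ι}
    (h : Rch nb B b k x) (hy : y ∈ nb x) :
    Rch nb B b (k + if x ∈ B ∨ y ∈ B then 0 else 1) y := by
  obtain ⟨n, l, h1, h2, h3, h4⟩ := h
  by_cases hl : y ∈ l
  · obtain ⟨m, l', g1, g2, g3, g4⟩ := exists_suffix B h1 h2 hl
    exact ⟨m, l', g1, g2, g3, g4.trans (h4.trans (Nat.le_add_right _ _))⟩
  · refine ⟨n + 1, y :: l, mem_Qp_succ.2 ⟨l, h1, y, by rw [h3]; exact hy, rfl⟩,
      List.nodup_cons.2 ⟨hl, h2⟩, rfl, ?_⟩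
    have hlen := length_of_mem_Qp h1
    cases l with
    | nil => simp at hlen
    | cons z t =>
      have hz : z = x := h3
      subst hz
      simp only [gd]
      have e : (y ∈ B ∨ z ∈ B) = (z ∈ B ∨ y ∈ B) := propext or_comm
      rw [show (if y ∈ B ∨ z ∈ B then (0 : ℕ) else 1) = if z ∈ B ∨ y ∈ B then 0 else 1 from
        if_congr (Iff.of_eq e) rfl rfl]
      omega

/-- every site can be reached -/
def Conn (nb : ι → Finset ι) (b : ι) : Prop := ∀ a, ∃ k, Rch nb ∅ b k a

theorem Rch.change {nb : ι → Finset ι} {B B' : Finset ι} {b : ι} {k : ℕ} {a : ι}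
    (h : Rch nb B b k a) : ∃ k', Rch nb B' b k' a := by
  obtain ⟨n, l, h1, h2, h3, -⟩ := h
  exact ⟨gd B' l, n, l, h1, h2, h3, le_rfl⟩

theorem Conn.exists {nb : ι → Finset ι} {b : ι} (h : Conn nb b) (B : Finset ι) (a : ι) :
    ∃ k, Rch nb B b k a := by
  obtain ⟨k, hk⟩ := h a
  exact hk.change

open Classical in
/-- first-passage pseudodistance (number of good bonds) -/
noncomputable def dg (nb : ι → Finset ι) (B : Finset ι) (b a : ι) : ℕ :=
  if h : ∃ k, Rch nb B b k a then Nat.find h else 0

theorem Rch_dg {nb : ι → Finset ι} {b : ι} (h : Conn nb b) (B : Finset ι) (a : ι) :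
    Rch nb B b (dg nb B b a) a := by
  classical
  have h1 := h.exists B a
  unfold dg
  rw [dif_pos h1]
  exact Nat.find_spec h1

theorem dg_le {nb : ι → Finset ι} {B : Finset ι} {b : ι} {k : ℕ} {a : ι} (h : Rch nb B b k a) :
    dg nb B b a ≤ k := by
  classical
  unfold dg
  rw [dif_pos ⟨k, h⟩]
  exact Nat.find_le h

theorem dg_self (nb : ι → Finset ι) (B : Finset ι) (b : ι) : dg nb B b b = 0 :=
  Nat.le_zero.1 (dg_le (Rch.refl nb B b))

theorem dg_step {nb : ι → Finset ι} {b : ι} (h : Conn nb b) (B : Finset ι) {x y : ι}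
    (hy : y ∈ nb x) : dg nb B b y ≤ dg nb B b x + if x ∈ B ∨ y ∈ B then 0 else 1 :=
  dg_le ((Rch_dg h B x).step hy)

/-- `dg` is constant on bonds which touch `B` -/
theorem dg_eq_of_bad {nb : ι → Finset ι} {b : ι} (h : Conn nb b) (B : Finset ι) {x y : ι}
    (hy : y ∈ nb x) (hx : x ∈ nb y) (hB : x ∈ B ∨ y ∈ B) : dg nb B b x = dg nb B b y := by
  have h1 := dg_step h B hy
  have h2 := dg_step h B hx
  rw [if_pos hB] at h1
  rw [if_pos hB.symm] at h2
  omega

/-- `dg` is 1-Lipschitz -/
theorem dg_lip {nb : ι → Finset ι} {b : ι} (h : Conn nb b) (B : Finset ι) {x y : ι}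
    (hy : y ∈ nb x) (hx : x ∈ nb y) : |(dg nb B b x : ℝ) - dg nb B b y| ≤ 1 := by
  have h1 : dg nb B b y ≤ dg nb B b x + 1 := (dg_step h B hy).trans (by split_ifs <;> omega)
  have h2 : dg nb B b x ≤ dg nb B b y + 1 := (dg_step h B hx).trans (by split_ifs <;> omega)
  have h1' : (dg nb B b y : ℝ) ≤ dg nb B b x + 1 := by exact_mod_cast h1
  have h2' : (dg nb B b x : ℝ) ≤ dg nb B b y + 1 := by exact_mod_cast h2
  rw [abs_le]; constructor <;> linarith

/-- distance of the end point -/
theorem le_of_mem_Qp {nb : ι → Finset ι} {b : ι} {g : ι → ℕ} (hg0 : g b = 0)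
    (hg : ∀ x, ∀ y ∈ nb x, g y ≤ g x + 1) {n : ℕ} {l : List ι} (h : l ∈ Qp nb b n) :
    g (l.headD b) ≤ n := by
  induction n generalizing l with
  | zero => rw [mem_Qp_zero] at h; rw [h]; exact hg0.le
  | succ n ih =>
    rw [mem_Qp_succ] at h
    obtain ⟨l', h1, y, hy, rfl⟩ := h
    exact (hg _ _ hy).trans (Nat.succ_le_succ (ih h1))

section fin

variable [Fintype ι]

/-- the path expansion -/
theorem sum_exp_le {nb : ι → Finset ι} {b : ι} (h : Conn nb b) (B : Finset ι) {g : ι → ℕ}
    (hg0 : g b = 0) (hg : ∀ x, ∀ y ∈ nb x, g y ≤ g x + 1) {μ : ℝ} (hμ : 0 ≤ μ) :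
    ∑ a, (g a : ℝ) ^ 2 * Real.exp (-2 * μ * dg nb B b a) ≤
      ∑ n ∈ range (Fintype.card ι), ∑ l ∈ (Qp nb b n).filter (fun l => l.Nodup),
        (n : ℝ) ^ 2 * (Real.exp (-2 * μ * n) *
          Real.exp (4 * μ * (l.countP (fun z => decide (z ∈ B)) : ℕ))) := by
  classical
  have key : ∀ a, ∃ n ∈ range (Fintype.card ι), ∃ l ∈ (Qp nb b n).filter (fun l => l.Nodup),
      l.headD b = a ∧ (g a : ℝ) ^ 2 * Real.exp (-2 * μ * dg nb B b a) ≤
      (n : ℝ) ^ 2 * (Real.exp (-2 * μ * n) *
          Real.exp (4 * μ * (l.countP (fun z => decide (z ∈ B)) : ℕ))) := by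
    intro a
    obtain ⟨n, l, h1, h2, h3, h4⟩ := Rch_dg h B a
    have hlen := length_of_mem_Qp h1
    have hcard : l.length ≤ Fintype.card ι := h2.length_le_card
    refine ⟨n, mem_range.2 (by omega), l, mem_filter.2 ⟨h1, h2⟩, h3, ?_⟩
    have hga : g a ≤ n := by rw [← h3]; exact le_of_mem_Qp hg0 hg h1
    have hga' : (g a : ℝ) ^ 2 ≤ (n : ℝ) ^ 2 :=
      pow_le_pow_left₀ (Nat.cast_nonneg _) (by exact_mod_cast hga) 2
    refine mul_le_mul hga' ?_ (Real.exp_pos _).le (by positivity)
    rw [← Real.exp_add]
    apply Real.exp_le_exp.2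
    have h5 : n ≤ dg nb B b a + 2 * l.countP (fun z => decide (z ∈ B)) := by
      cases l with
      | nil => simp at hlen
      | cons x t =>
        have h6 := length_le_gd B x t
        rw [hlen] at h6
        omega
    have h5' : (n : ℝ) ≤ dg nb B b a + 2 * (l.countP (fun z => decide (z ∈ B)) : ℕ) := by
      exact_mod_cast h5
    nlinarith [mul_le_mul_of_nonneg_left h5' hμ]
  choose n hn l hl hla hle using key
  have hpos : ∀ (m : ℕ) (l' : List ι), 0 ≤ (m : ℝ) ^ 2 * (Real.exp (-2 * μ * m) *
          Real.exp (4 * μ * (l'.countP (fun z => decide (z ∈ B)) : ℕ))) := fun _ _ => by positivity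
  calc ∑ a, (g a : ℝ) ^ 2 * Real.exp (-2 * μ * dg nb B b a)
      ≤ ∑ a, ∑ m ∈ range (Fintype.card ι), ∑ l' ∈ (Qp nb b m).filter (fun l => l.Nodup),
          if l'.headD b = a then (m : ℝ) ^ 2 * (Real.exp (-2 * μ * m) *
          Real.exp (4 * μ * (l'.countP (fun z => decide (z ∈ B)) : ℕ))) else 0 := by
        refine Finset.sum_le_sum fun a _ => (hle a).trans ?_
        refine le_trans ?_ (Finset.single_le_sum (f := fun m => ∑ l' ∈ (Qp nb b m).filter
          (fun l => l.Nodup), if l'.headD b = a then (m : ℝ) ^ 2 * (Real.exp (-2 * μ * m) *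
          Real.exp (4 * μ * (l'.countP (fun z => decide (z ∈ B)) : ℕ))) else 0)
          (fun m _ => Finset.sum_nonneg fun l' _ => by
            split_ifs
            · exact hpos _ _
            · exact le_rfl) (hn a))
        refine le_trans ?_ (Finset.single_le_sum (f := fun l' => if l'.headD b = a then
          ((n a : ℕ) : ℝ) ^ 2 * (Real.exp (-2 * μ * (n a : ℕ)) *
          Real.exp (4 * μ * (l'.countP (fun z => decide (z ∈ B)) : ℕ))) else 0)
          (fun l' _ => by
            split_ifs
            · exact hpos _ _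
            · exact le_rfl) (hl a))
        simp only [hla a, if_true]
        exact le_rfl
    _ = _ := by
        rw [Finset.sum_comm]
        refine Finset.sum_congr rfl fun m _ => ?_
        rw [Finset.sum_comm]
        refine Finset.sum_congr rfl fun l' _ => ?_
        rw [Finset.sum_ite_eq]
        simp

end fin

section coins

variable {Ω : Type*} [MeasurableSpace Ω] {P : Measure Ω}

/-- a function of a random finite set is a finite sum of indicators -/
theorem measurable_comp_finset [Fintype ι] {B : Ω → Finset ι}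
    (hB : ∀ x, MeasurableSet {ω | x ∈ B ω}) (F : Finset ι → ℝ) :
    Measurable (fun ω => F (B ω)) := by
  classical
  have hS : ∀ S : Finset ι, MeasurableSet {ω | B ω = S} := by
    intro S
    have : {ω | B ω = S} = ⋂ x, {ω | x ∈ B ω ↔ x ∈ S} := by
      ext ω
      simp only [Set.mem_setOf_eq, Set.mem_iInter]
      exact Finset.ext_iff
    rw [this]
    refine MeasurableSet.iInter fun x => ?_
    by_cases hx : x ∈ S
    · simp only [hx, iff_true]; exact hB x
    · simp only [hx, iff_false]; exact (hB x).compl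
  have : (fun ω => F (B ω)) = fun ω => ∑ S : Finset ι, ({ω | B ω = S}).indicator (fun _ => F S) ω := by
    ext ω
    rw [Finset.sum_eq_single (B ω)]
    · rw [Set.indicator_of_mem (show ω ∈ {ω' | B ω' = B ω} from rfl)]
    · intro S _ hne
      rw [Set.indicator_of_notMem]
      intro h
      exact hne h.symm
    · intro h; exact absurd (mem_univ _) h
  rw [this]
  exact Finset.measurable_sum _ fun S _ => measurable_const.indicator (hS S)

theorem integrable_comp_finset [Fintype ι] [IsFiniteMeasure P] {B : Ω → Finset ι}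
    (hB : ∀ x, MeasurableSet {ω | x ∈ B ω}) (F : Finset ι → ℝ) :
    Integrable (fun ω => F (B ω)) P := by
  classical
  refine Integrable.of_bound (measurable_comp_finset hB F).aestronglyMeasurable
    (∑ S : Finset ι, ‖F S‖) (Filter.Eventually.of_forall fun ω => ?_)
  exact Finset.single_le_sum (f := fun S => ‖F S‖) (fun S _ => norm_nonneg _) (mem_univ (B ω))

/-- first moment: the START bound -/
theorem integral_sum_exp_le [Fintype ι] [IsProbabilityMeasure P] {nb : ι → Finset ι} {b : ι}
    (h : Conn nb b) {B : Ω → Finset ι} (hB : ∀ x, MeasurableSet {ω | x ∈ B ω}) {g : ι → ℕ}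
    (hg0 : g b = 0) (hg : ∀ x, ∀ y ∈ nb x, g y ≤ g x + 1) {μ : ℝ} (hμ : 0 ≤ μ)
    {Δ : ℕ} (hΔ : ∀ x, (nb x).card ≤ Δ) {c : ℝ} (hc : 0 ≤ c)
    (hE : ∀ l : List ι, l.Nodup →
      ∫ ω, Real.exp (4 * μ * (l.countP (fun z => decide (z ∈ B ω)) : ℕ)) ∂P ≤ c ^ l.length)
    (hq : Δ * c * Real.exp (-2 * μ) ≤ 1 / 4) :
    ∫ ω, ∑ a, (g a : ℝ) ^ 2 * Real.exp (-2 * μ * dg nb (B ω) b a) ∂P ≤ 2 * c := by
  classical
  have hint : ∀ l : List ι, Integrable
      (fun ω => Real.exp (4 * μ * (l.countP (fun z => decide (z ∈ B ω)) : ℕ))) P := fun l =>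
    integrable_comp_finset hB (fun S => Real.exp (4 * μ * (l.countP (fun z => decide (z ∈ S)) : ℕ)))
  have hint2 : ∀ (n : ℕ) (l : List ι), Integrable (fun ω => (n : ℝ) ^ 2 * (Real.exp (-2 * μ * n) *
      Real.exp (4 * μ * (l.countP (fun z => decide (z ∈ B ω)) : ℕ)))) P := fun n l =>
    ((hint l).const_mul _).const_mul _
  calc ∫ ω, ∑ a, (g a : ℝ) ^ 2 * Real.exp (-2 * μ * dg nb (B ω) b a) ∂P
      ≤ ∫ ω, ∑ n ∈ range (Fintype.card ι), ∑ l ∈ (Qp nb b n).filter (fun l => l.Nodup),
        (n : ℝ) ^ 2 * (Real.exp (-2 * μ * n) *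
          Real.exp (4 * μ * (l.countP (fun z => decide (z ∈ B ω)) : ℕ))) ∂P := by
        refine integral_mono (integrable_comp_finset hB
          (fun S => ∑ a, (g a : ℝ) ^ 2 * Real.exp (-2 * μ * dg nb S b a))) ?_
          fun ω => sum_exp_le h (B ω) hg0 hg hμ
        exact integrable_finset_sum _ fun n _ => integrable_finset_sum _ fun l _ => hint2 n l
    _ = ∑ n ∈ range (Fintype.card ι), ∑ l ∈ (Qp nb b n).filter (fun l => l.Nodup),
        (n : ℝ) ^ 2 * (Real.exp (-2 * μ * n) *
          ∫ ω, Real.exp (4 * μ * (l.countP (fun z => decide (z ∈ B ω)) : ℕ)) ∂P) := by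
        rw [integral_finset_sum _ fun n _ => integrable_finset_sum _ fun l _ => hint2 n l]
        refine Finset.sum_congr rfl fun n _ => ?_
        rw [integral_finset_sum _ fun l _ => hint2 n l]
        refine Finset.sum_congr rfl fun l _ => ?_
        rw [integral_const_mul, integral_const_mul]
    _ ≤ ∑ n ∈ range (Fintype.card ι), c * ((n : ℝ) ^ 2 * (1 / 4) ^ n) := by
        refine Finset.sum_le_sum fun n _ => ?_
        calc ∑ l ∈ (Qp nb b n).filter (fun l => l.Nodup),
              (n : ℝ) ^ 2 * (Real.exp (-2 * μ * n) *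
              ∫ ω, Real.exp (4 * μ * (l.countP (fun z => decide (z ∈ B ω)) : ℕ)) ∂P)
            ≤ ∑ l ∈ (Qp nb b n).filter (fun l => l.Nodup),
              (n : ℝ) ^ 2 * (Real.exp (-2 * μ * n) * c ^ (n + 1)) := by
              refine Finset.sum_le_sum fun l hl => ?_
              rw [mem_filter] at hl
              have h1 := hE l hl.2
              rw [length_of_mem_Qp hl.1] at h1
              gcongr
          _ = ((Qp nb b n).filter (fun l => l.Nodup)).card *
              ((n : ℝ) ^ 2 * (Real.exp (-2 * μ * n) * c ^ (n + 1))) := by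
              rw [sum_const, nsmul_eq_mul]
          _ ≤ (Δ : ℝ) ^ n * ((n : ℝ) ^ 2 * (Real.exp (-2 * μ * n) * c ^ (n + 1))) := by
              have h1 : (((Qp nb b n).filter (fun l => l.Nodup)).card : ℝ) ≤ (Δ : ℝ) ^ n := by
                exact_mod_cast (card_filter_le _ _).trans (card_Qp_le hΔ b n)
              gcongr
          _ = c * ((n : ℝ) ^ 2 * (Δ * c * Real.exp (-2 * μ)) ^ n) := by
              have h2 : Real.exp (-2 * μ * n) = Real.exp (-2 * μ) ^ n := by
                rw [← Real.exp_nat_mul]; ring_nf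
              rw [h2, mul_pow, mul_pow]; ring
          _ ≤ c * ((n : ℝ) ^ 2 * (1 / 4) ^ n) := by
              have h3 : 0 ≤ Δ * c * Real.exp (-2 * μ) := by positivity
              gcongr
    _ ≤ c * 2 := by
        rw [← Finset.mul_sum]
        refine mul_le_mul_of_nonneg_left ?_ hc
        have h1 : ∀ n : ℕ, (n : ℝ) ^ 2 * (1 / 4) ^ n ≤ 2 * (1 / 2) ^ n - (if n = 0 then 2 else 0) := by
          intro n
          rcases Nat.eq_zero_or_pos n with rfl | hn
          · norm_num
          · rw [if_neg hn.ne', sub_zero]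
            have h2 : (n : ℝ) ^ 2 ≤ 2 * 2 ^ n := by
              have : ∀ m : ℕ, (m + 1) ^ 2 ≤ 2 * 2 ^ (m + 1) := by
                intro m
                induction m with
                | zero => norm_num
                | succ m ih =>
                  rcases Nat.lt_or_ge m 3 with h | h
                  · interval_cases m <;> norm_num
                  · have : (m + 1 + 1) ^ 2 ≤ 2 * (m + 1) ^ 2 := by nlinarith
                    calc (m + 1 + 1) ^ 2 ≤ 2 * (m + 1) ^ 2 := this
                      _ ≤ 2 * (2 * 2 ^ (m + 1)) := Nat.mul_le_mul_left _ ih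
                      _ = 2 * 2 ^ (m + 1 + 1) := by ring
              obtain ⟨m, rfl⟩ : ∃ m, n = m + 1 := ⟨n - 1, by omega⟩
              exact_mod_cast this m
            calc (n : ℝ) ^ 2 * (1 / 4) ^ n ≤ (2 * 2 ^ n) * (1 / 4) ^ n := by gcongr
              _ = 2 * (2 * (1 / 4)) ^ n := by rw [mul_pow]; ring
              _ = 2 * (1 / 2) ^ n := by norm_num
        have h4 : ∀ M : ℕ, ∑ n ∈ range M, (2 * (1 / 2 : ℝ) ^ n - (if n = 0 then 2 else 0)) ≤ 2 := by
          intro M
          have h5 : ∑ n ∈ range M, (1 / 2 : ℝ) ^ n ≤ 2 := by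
            have := sum_geometric_two_le M
            simpa using this
          cases M with
          | zero => norm_num
          | succ M =>
            rw [Finset.sum_sub_distrib, ← Finset.mul_sum, Finset.sum_ite_eq' (range (M + 1)) 0
              (fun _ => (2 : ℝ)), if_pos (mem_range.2 (Nat.succ_pos M))]
            linarith
        exact (Finset.sum_le_sum fun n _ => h1 n).trans (h4 _)
    _ = 2 * c := mul_comm _ _

/-- product of coins: exponential moment of the number of sites of a self-avoiding list covered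
by the boxes whose coin shows 1 -/
theorem coins {J : Type*} [Fintype J] [IsProbabilityMeasure P] (X : J → Set Ω)
    (hX : ∀ j, MeasurableSet (X j)) (q : J → ℝ) (hq : ∀ j, 0 ≤ q j)
    (hP : ∀ T : Finset J, P.real (⋂ j ∈ T, X j) ≤ ∏ j ∈ T, q j)
    (bx : J → Finset ι) {B : Ω → Finset ι} (hB : ∀ x, MeasurableSet {ω | x ∈ B ω})
    (hcov : ∀ ω, ∀ x ∈ B ω, ∃ j, ω ∈ X j ∧ x ∈ bx j) {s : ℝ} (hs : 0 ≤ s)
    (hsum : ∀ x, ∑ j, (if x ∈ bx j then q j * Real.exp (s * (bx j).card) else 0) ≤ 1)
    [Fintype ι] (l : List ι) (hl : l.Nodup) :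
    ∫ ω, Real.exp (s * (l.countP (fun z => decide (z ∈ B ω)) : ℕ)) ∂P ≤
      Real.exp 1 ^ l.length := by
  classical
  set m : J → ℕ := fun j => l.countP (fun z => decide (z ∈ bx j)) with hm
  -- pointwise bound of the count
  have h1 : ∀ ω, (l.countP (fun z => decide (z ∈ B ω)) : ℝ) ≤
      ∑ j, (X j).indicator (fun _ => (m j : ℝ)) ω := by
    intro ω
    have h2 : ∀ l' : List ι, (l'.countP (fun z => decide (z ∈ B ω)) : ℝ) ≤
        ∑ j, (X j).indicator (fun _ => ((l'.countP (fun z => decide (z ∈ bx j)) : ℕ) : ℝ)) ω := by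
      intro l'
      induction l' with
      | nil => simp
      | cons x t ih =>
        have h3 : ((if x ∈ B ω then 1 else 0 : ℕ) : ℝ) ≤
            ∑ j, (X j).indicator (fun _ => ((if x ∈ bx j then 1 else 0 : ℕ) : ℝ)) ω := by
          split_ifs with hx
          · obtain ⟨j, hj, hxj⟩ := hcov ω x hx
            refine le_trans ?_ (Finset.single_le_sum (f := fun j => (X j).indicator
              (fun _ => ((if x ∈ bx j then 1 else 0 : ℕ) : ℝ)) ω) (fun j _ => ?_) (mem_univ j))
            · simp only [Set.indicator_of_mem hj, hxj, if_true]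
              exact le_rfl
            · exact Set.indicator_nonneg (fun _ _ => Nat.cast_nonneg _) _
          · push_cast
            exact Finset.sum_nonneg fun j _ => Set.indicator_nonneg (fun _ _ => by positivity) _
        have h4 : ∀ S : Finset ι, ((x :: t).countP (fun z => decide (z ∈ S)) : ℝ) =
            ((if x ∈ S then 1 else 0 : ℕ) : ℝ) + (t.countP (fun z => decide (z ∈ S)) : ℝ) := by
          intro S
          rw [List.countP_cons]
          by_cases hx : x ∈ S <;> simp [hx, add_comm]
        rw [h4]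
        calc ((if x ∈ B ω then 1 else 0 : ℕ) : ℝ) + (t.countP (fun z => decide (z ∈ B ω)) : ℝ)
            ≤ ∑ j, (X j).indicator (fun _ => ((if x ∈ bx j then 1 else 0 : ℕ) : ℝ)) ω +
              ∑ j, (X j).indicator (fun _ => ((t.countP (fun z => decide (z ∈ bx j)) : ℕ) : ℝ)) ω :=
              add_le_add h3 ih
          _ = _ := by
              rw [← Finset.sum_add_distrib]
              refine Finset.sum_congr rfl fun j _ => ?_
              by_cases hj : ω ∈ X j
              · simp only [Set.indicator_of_mem hj]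
                rw [← h4]
              · simp only [Set.indicator_of_notMem hj, add_zero]
    exact h2 l
  -- pointwise product bound
  set a : J → ℝ := fun j => Real.exp (s * m j) - 1 with ha
  have ha0 : ∀ j, 0 ≤ a j := fun j => by
    rw [ha]; simp only [sub_nonneg]
    exact Real.one_le_exp (by positivity)
  have h5 : ∀ ω, Real.exp (s * (l.countP (fun z => decide (z ∈ B ω)) : ℕ)) ≤
      ∑ T : Finset J, (⋂ j ∈ T, X j).indicator (fun _ => ∏ j ∈ T, a j) ω := by
    intro ω
    calc Real.exp (s * (l.countP (fun z => decide (z ∈ B ω)) : ℕ))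
        ≤ Real.exp (∑ j, s * (X j).indicator (fun _ => (m j : ℝ)) ω) := by
          rw [← Finset.mul_sum]
          exact Real.exp_le_exp.2 (mul_le_mul_of_nonneg_left (h1 ω) hs)
      _ = ∏ j, Real.exp (s * (X j).indicator (fun _ => (m j : ℝ)) ω) := Real.exp_sum _ _
      _ = ∏ j, (1 + (X j).indicator (fun _ => a j) ω) := by
          refine Finset.prod_congr rfl fun j _ => ?_
          by_cases hj : ω ∈ X j
          · simp only [Set.indicator_of_mem hj, ha]; ring
          · simp only [Set.indicator_of_notMem hj]; simp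
      _ = ∑ T ∈ (univ : Finset J).powerset, ∏ j ∈ T, (X j).indicator (fun _ => a j) ω :=
          Finset.prod_one_add _
      _ = ∑ T : Finset J, (⋂ j ∈ T, X j).indicator (fun _ => ∏ j ∈ T, a j) ω := by
          rw [Finset.powerset_univ]
          refine Finset.sum_congr rfl fun T _ => ?_
          by_cases hT : ω ∈ ⋂ j ∈ T, X j
          · rw [Set.indicator_of_mem hT]
            refine Finset.prod_congr rfl fun j hj => ?_
            have : ω ∈ X j := by
              simp only [Set.mem_iInter] at hT; exact hT j hj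
            rw [Set.indicator_of_mem this]
          · rw [Set.indicator_of_notMem hT]
            simp only [Set.mem_iInter, not_forall] at hT
            obtain ⟨j, hj, hn⟩ := hT
            exact Finset.prod_eq_zero hj (Set.indicator_of_notMem hn _)
  have hmeas : ∀ T : Finset J, MeasurableSet (⋂ j ∈ T, X j) := fun T =>
    Finset.measurableSet_biInter T fun j _ => hX j
  have hint : ∀ T : Finset J, Integrable
      ((⋂ j ∈ T, X j).indicator (fun _ => ∏ j ∈ T, a j)) P := fun T =>
    (integrable_const _).indicator (hmeas T)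
  calc ∫ ω, Real.exp (s * (l.countP (fun z => decide (z ∈ B ω)) : ℕ)) ∂P
      ≤ ∫ ω, ∑ T : Finset J, (⋂ j ∈ T, X j).indicator (fun _ => ∏ j ∈ T, a j) ω ∂P :=
        integral_mono (integrable_comp_finset hB
          (fun S => Real.exp (s * (l.countP (fun z => decide (z ∈ S)) : ℕ))))
          (integrable_finset_sum _ fun T _ => hint T) h5
    _ = ∑ T : Finset J, P.real (⋂ j ∈ T, X j) * ∏ j ∈ T, a j := by
        rw [integral_finset_sum _ fun T _ => hint T]
        refine Finset.sum_congr rfl fun T _ => ?_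
        rw [integral_indicator_const _ (hmeas T), smul_eq_mul]
    _ ≤ ∑ T : Finset J, ∏ j ∈ T, (q j * a j) := by
        refine Finset.sum_le_sum fun T _ => ?_
        rw [Finset.prod_mul_distrib]
        exact mul_le_mul_of_nonneg_right (hP T) (Finset.prod_nonneg fun j _ => ha0 j)
    _ = ∏ j, (1 + q j * a j) := by
        rw [Finset.prod_one_add, Finset.powerset_univ]
    _ ≤ ∏ j, Real.exp (q j * a j) := by
        refine Finset.prod_le_prod (fun j _ => by have := ha0 j; have := hq j; positivity)
          fun j _ => ?_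
        rw [add_comm]; exact Real.add_one_le_exp _
    _ = Real.exp (∑ j, q j * a j) := (Real.exp_sum _ _).symm
    _ ≤ Real.exp (l.length) := by
        apply Real.exp_le_exp.2
        have h6 : ∀ j, q j * a j ≤ (m j : ℝ) * (q j * Real.exp (s * (bx j).card)) := by
          intro j
          have h7 : a j ≤ m j * Real.exp (s * (bx j).card) := by
            rcases Nat.eq_zero_or_pos (m j) with h0 | h0
            · simp [ha, h0]
            · have h8 : (m j : ℝ) ≤ (bx j).card := by
                have : m j ≤ (bx j).card := by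
                  rw [hm]
                  simp only
                  rw [List.countP_eq_length_filter]
                  have h9 : (l.filter (fun z => decide (z ∈ bx j))).Nodup := hl.filter _
                  rw [← List.toFinset_card_of_nodup h9]
                  refine card_le_card fun z hz => ?_
                  rw [List.mem_toFinset, List.mem_filter] at hz
                  exact of_decide_eq_true hz.2
                exact_mod_cast this
              have h10 : (1 : ℝ) ≤ m j := by exact_mod_cast h0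
              calc a j ≤ Real.exp (s * m j) := by rw [ha]; linarith
                _ ≤ Real.exp (s * (bx j).card) :=
                    Real.exp_le_exp.2 (mul_le_mul_of_nonneg_left h8 hs)
                _ ≤ m j * Real.exp (s * (bx j).card) :=
                    le_mul_of_one_le_left (Real.exp_pos _).le h10
          calc q j * a j ≤ q j * (m j * Real.exp (s * (bx j).card)) :=
                mul_le_mul_of_nonneg_left h7 (hq j)
            _ = _ := by ring
        refine (Finset.sum_le_sum fun j _ => h6 j).trans ?_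
        have h11 : ∀ l' : List ι, ∑ j, ((l'.countP (fun z => decide (z ∈ bx j)) : ℕ) : ℝ) *
            (q j * Real.exp (s * (bx j).card)) ≤ l'.length := by
          intro l'
          induction l' with
          | nil => simp
          | cons x t ih =>
            have h12 : ∀ j, (((x :: t).countP (fun z => decide (z ∈ bx j)) : ℕ) : ℝ) *
                (q j * Real.exp (s * (bx j).card)) =
                (if x ∈ bx j then q j * Real.exp (s * (bx j).card) else 0) +
                ((t.countP (fun z => decide (z ∈ bx j)) : ℕ) : ℝ) *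
                (q j * Real.exp (s * (bx j).card)) := by
              intro j
              rw [List.countP_cons]
              by_cases hx : x ∈ bx j <;> simp [hx]
              ring
            rw [Finset.sum_congr rfl fun j _ => h12 j, Finset.sum_add_distrib,
              List.length_cons]
            push_cast
            linarith [hsum x]
        exact h11 l
    _ = Real.exp 1 ^ l.length := by rw [← Real.exp_nat_mul, mul_one]

end coins

end P365T1
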