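import Vale.Agent.P365.T1a.CT
import Vale.Agent.P365.T1a.Peierls
import Mathlib.Analysis.SpecialFunctions.Trigonometric.DerivHyp
import Mathlib.Analysis.Complex.ExponentialBounds

/-!
# P365-T1: START.  Bad sites (never moved) at an arbitrarily small absorption, all others at 32:
the energy of every 1-Lipschitz `f` is at most `22` per site, uniformly in everything.
-/

set_option linter.all false

namespace P365T1

open P365L P365O Matrix Complex MeasureTheory

variable {N : ℕ} [NeZero N]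

/-- neighbours on the torus -/
def nbT (N : ℕ) [NeZero N] (x : Tor N) : Finset (Tor N) := (nbs N).image (fun a => x + a)

theorem mem_nbT {x y : Tor N} : y ∈ nbT N x ↔ y - x ∈ nbs N := by
  unfold nbT
  rw [Finset.mem_image]
  constructor
  · rintro ⟨a, ha, rfl⟩
    rwa [add_sub_cancel_left]
  · intro h
    exact ⟨y - x, h, by abel⟩

theorem mem_nbT_iff {x y : Tor N} : y ∈ nbT N x ↔ AT N x y ≠ 0 := by
  rw [mem_nbT]
  unfold AT
  split_ifs with h
  · simp [h]
  · simp [h]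

theorem mem_nbT_comm {x y : Tor N} : y ∈ nbT N x ↔ x ∈ nbT N y := by
  rw [mem_nbT, mem_nbT, ← nbs_neg, neg_sub]

theorem card_nbT_le (x : Tor N) : (nbT N x).card ≤ 4 :=
  Finset.card_image_le.trans card_nbs_le

theorem add_mem_nbT {x a : Tor N} (ha : a ∈ nbs N) : x + a ∈ nbT N x :=
  Finset.mem_image_of_mem _ ha

theorem conn_tor (b : Tor N) : Conn (nbT N) b := by
  have h1 : ∀ n : ℕ, ∃ k, Rch (nbT N) ∅ b k (b + ((n : ZMod N), 0)) := by
    intro n
    induction n with
    | zero =>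
      have e : b + (((0 : ℕ) : ZMod N), 0) = b := by
        ext <;> simp
      exact ⟨0, by rw [e]; exact Rch.refl (nbT N) ∅ b⟩
    | succ n ih =>
      obtain ⟨k, hk⟩ := ih
      have h2 := hk.step (add_mem_nbT (x := b + ((n : ZMod N), 0)) (a := (1, 0)) (by simp [nbs]))
      have e : b + ((n : ZMod N), 0) + (1, 0) = b + (((n + 1 : ℕ) : ZMod N), 0) := by
        rw [add_assoc]
        congr 1
        ext <;> simp
      rw [e] at h2
      exact ⟨_, h2⟩
  have h3 : ∀ n m : ℕ, ∃ k, Rch (nbT N) ∅ b k (b + ((n : ZMod N), (m : ZMod N))) := by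
    intro n m
    induction m with
    | zero => simpa using h1 n
    | succ m ih =>
      obtain ⟨k, hk⟩ := ih
      have h2 := hk.step (add_mem_nbT (x := b + ((n : ZMod N), (m : ZMod N))) (a := (0, 1))
        (by simp [nbs]))
      have e : b + ((n : ZMod N), (m : ZMod N)) + (0, 1) =
          b + ((n : ZMod N), ((m + 1 : ℕ) : ZMod N)) := by
        rw [add_assoc]
        congr 1
        ext <;> simp
      rw [e] at h2
      exact ⟨_, h2⟩
  intro a
  obtain ⟨k, hk⟩ := h3 (a - b).1.val (a - b).2.val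
  refine ⟨k, ?_⟩
  have e : b + (((a - b).1.val : ZMod N), ((a - b).2.val : ZMod N)) = a := by
    rw [ZMod.natCast_zmod_val, ZMod.natCast_zmod_val]
    ext <;> simp
  rwa [e] at hk

/-- the weight `μ dg` is admissible for `CT_col` -/
theorem weight_ok {W : Tor N → ℂ} (hW : ∀ x, (W x).im < 0) (B : Finset (Tor N)) {μ : ℝ}
    (hμ : 0 ≤ μ) (hbig : ∀ x, x ∉ B → 8 * Real.sinh μ ≤ -(W x).im) (b x : Tor N) :
    ∑ y, |AT N x y| * |Real.sinh (μ * dg (nbT N) B b x - μ * dg (nbT N) B b y)| ≤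
      (-(W x).im) / 2 := by
  by_cases hx : x ∈ B
  · have h0 : ∀ y, |AT N x y| * |Real.sinh (μ * dg (nbT N) B b x - μ * dg (nbT N) B b y)| = 0 := by
      intro y
      by_cases hA : AT N x y = 0
      · rw [hA, abs_zero, zero_mul]
      · have hy := mem_nbT_iff.2 hA
        rw [dg_eq_of_bad (conn_tor b) B hy (mem_nbT_comm.1 hy) (Or.inl hx), sub_self,
          Real.sinh_zero, abs_zero, mul_zero]
    rw [Finset.sum_congr rfl fun y _ => h0 y, Finset.sum_const_zero]
    linarith [hW x]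
  · have hs : 0 ≤ Real.sinh μ := Real.sinh_nonneg_iff.2 hμ
    have h1 : ∀ y, |AT N x y| * |Real.sinh (μ * dg (nbT N) B b x - μ * dg (nbT N) B b y)| ≤
        AT N x y * Real.sinh μ := by
      intro y
      rw [abs_of_nonneg (AT_nonneg x y)]
      by_cases hA : AT N x y = 0
      · rw [hA, zero_mul, zero_mul]
      · have hy := mem_nbT_iff.2 hA
        refine mul_le_mul_of_nonneg_left ?_ (AT_nonneg x y)
        have h2 := dg_lip (conn_tor b) B hy (mem_nbT_comm.1 hy)
        rw [← mul_sub, Real.abs_sinh, abs_mul, abs_of_nonneg hμ]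
        exact Real.sinh_le_sinh.2 (mul_le_of_le_one_right hμ h2)
    refine (Finset.sum_le_sum fun y _ => h1 y).trans ?_
    rw [← Finset.sum_mul]
    have h3 := mul_le_mul_of_nonneg_right (row_sum_le x) hs
    have h4 := hbig x hx
    linarith

/-- deterministic START bound, one column -/
theorem start_col {W : Tor N → ℂ} (hW : ∀ x, (W x).im < 0) (B : Finset (Tor N)) {μ : ℝ}
    (hμ : 0 ≤ μ) (hbig : ∀ x, x ∉ B → 8 * Real.sinh μ ≤ -(W x).im) (b : Tor N) :
    (-(W b).im) * ∑ a, (-(W a).im) * KK (AT N) W a b * (nrm (a - b) : ℝ) ^ 2 ≤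
      4 * ∑ a, (nrm (a - b) : ℝ) ^ 2 * Real.exp (-2 * μ * dg (nbT N) B b a) := by
  have h1 := CT_col (AT_symm N) hW (φ := fun x => μ * dg (nbT N) B b x)
    (fun x => weight_ok hW B hμ hbig b x) b
  have he : ∀ x, 0 ≤ -(W x).im := fun x => by linarith [hW x]
  have h2 : ∀ a, (-(W b).im) * ((-(W a).im) * KK (AT N) W a b) ≤
      4 * Real.exp (-2 * μ * dg (nbT N) B b a) := by
    intro a
    have h3 : (-(W a).im) * KK (AT N) W a b * Real.exp (2 * (μ * dg (nbT N) B b a -
        μ * dg (nbT N) B b b)) ≤ ∑ a, (-(W a).im) * KK (AT N) W a b *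
        Real.exp (2 * (μ * dg (nbT N) B b a - μ * dg (nbT N) B b b)) :=
      Finset.single_le_sum (f := fun a => (-(W a).im) * KK (AT N) W a b *
        Real.exp (2 * (μ * dg (nbT N) B b a - μ * dg (nbT N) B b b)))
        (fun x _ => mul_nonneg (mul_nonneg (he x) (KK_nonneg _ _)) (Real.exp_pos _).le)
        (Finset.mem_univ a)
    have h4 := (mul_le_mul_of_nonneg_left h3 (he b)).trans h1
    rw [dg_self, Nat.cast_zero, mul_zero, sub_zero] at h4
    have h5 : Real.exp (2 * (μ * dg (nbT N) B b a)) * Real.exp (-2 * μ * dg (nbT N) B b a) = 1 := by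
      rw [← Real.exp_add]
      have : 2 * (μ * dg (nbT N) B b a) + -2 * μ * dg (nbT N) B b a = 0 := by ring
      rw [this, Real.exp_zero]
    calc (-(W b).im) * ((-(W a).im) * KK (AT N) W a b)
        = (-(W b).im) * ((-(W a).im) * KK (AT N) W a b *
          Real.exp (2 * (μ * dg (nbT N) B b a))) * Real.exp (-2 * μ * dg (nbT N) B b a) := by
          have : ∀ u v p q : ℝ, p * q = 1 → u * v = u * (v * p) * q := by
            intro u v p q h
            calc u * v = u * v * (p * q) := by rw [h, mul_one]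
              _ = _ := by ring
          exact this _ _ _ _ h5
      _ ≤ 4 * Real.exp (-2 * μ * dg (nbT N) B b a) :=
          mul_le_mul_of_nonneg_right h4 (Real.exp_pos _).le
  rw [Finset.mul_sum, Finset.mul_sum]
  refine Finset.sum_le_sum fun a _ => ?_
  have h6 := mul_le_mul_of_nonneg_left (h2 a) (sq_nonneg (nrm (a - b) : ℝ))
  calc (-(W b).im) * ((-(W a).im) * KK (AT N) W a b * (nrm (a - b) : ℝ) ^ 2)
      = (nrm (a - b) : ℝ) ^ 2 * ((-(W b).im) * ((-(W a).im) * KK (AT N) W a b)) := by ring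
    _ ≤ _ := h6
    _ = _ := by ring

/-- deterministic START bound, energy -/
theorem start_En {W : Tor N → ℂ} (hW : ∀ x, (W x).im < 0) (B : Finset (Tor N)) {μ : ℝ}
    (hμ : 0 ≤ μ) (hbig : ∀ x, x ∉ B → 8 * Real.sinh μ ≤ -(W x).im) {f : Tor N → ℝ}
    (hf : ∀ x y, |f x - f y| ≤ nrm (x - y)) :
    En (AT N) W f ≤
      ∑ b, 4 * ∑ a, (nrm (a - b) : ℝ) ^ 2 * Real.exp (-2 * μ * dg (nbT N) B b a) := by
  have he : ∀ x, 0 ≤ -(W x).im := fun x => by linarith [hW x]
  unfold En
  rw [Finset.sum_comm]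
  refine Finset.sum_le_sum fun b _ => ?_
  refine le_trans ?_ (start_col hW B hμ hbig b)
  rw [Finset.mul_sum]
  refine Finset.sum_le_sum fun a _ => ?_
  have h1 : (f a - f b) ^ 2 ≤ (nrm (a - b) : ℝ) ^ 2 := by
    rw [← sq_abs]
    exact pow_le_pow_left₀ (abs_nonneg _) (hf a b) 2
  have h2 : 0 ≤ (-(W a).im) * (-(W b).im) * KK (AT N) W a b :=
    mul_nonneg (mul_nonneg (he a) (he b)) (KK_nonneg _ _)
  calc (-(W a).im) * (-(W b).im) * KK (AT N) W a b * (f a - f b) ^ 2
      ≤ (-(W a).im) * (-(W b).im) * KK (AT N) W a b * (nrm (a - b) : ℝ) ^ 2 :=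
        mul_le_mul_of_nonneg_left h1 h2
    _ = _ := by ring

/-- expected START bound -/
theorem start_integral {Ω : Type*} [MeasurableSpace Ω] {P : Measure Ω} [IsProbabilityMeasure P]
    {W : Ω → Tor N → ℂ} (hW : ∀ ω x, (W ω x).im < 0) {B : Ω → Finset (Tor N)}
    (hB : ∀ x, MeasurableSet {ω | x ∈ B ω}) {μ : ℝ} (hμ : 0 ≤ μ)
    (hbig : ∀ ω x, x ∉ B ω → 8 * Real.sinh μ ≤ -(W ω x).im) {f : Tor N → ℝ}
    (hf : ∀ x y, |f x - f y| ≤ nrm (x - y)) {c : ℝ} (hc : 0 ≤ c)
    (hE : ∀ l : List (Tor N), l.Nodup →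
      ∫ ω, Real.exp (4 * μ * (l.countP (fun z => decide (z ∈ B ω)) : ℕ)) ∂P ≤ c ^ l.length)
    (hq : 4 * c * Real.exp (-2 * μ) ≤ 1 / 4)
    (hm : AEStronglyMeasurable (fun ω => En (AT N) (W ω) f) P) :
    Integrable (fun ω => En (AT N) (W ω) f) P ∧
      ∫ ω, En (AT N) (W ω) f ∂P ≤ 8 * c * Fintype.card (Tor N) := by
  classical
  set F : Finset (Tor N) → ℝ := fun S =>
    ∑ b, 4 * ∑ a, (nrm (a - b) : ℝ) ^ 2 * Real.exp (-2 * μ * dg (nbT N) S b a) with hF
  have hFi : Integrable (fun ω => F (B ω)) P := integrable_comp_finset hB F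
  have h1 : ∀ ω, En (AT N) (W ω) f ≤ F (B ω) := fun ω => start_En (hW ω) (B ω) hμ (hbig ω) hf
  have h0 : ∀ ω, 0 ≤ En (AT N) (W ω) f := fun ω =>
    Finset.sum_nonneg fun x _ => Finset.sum_nonneg fun y _ =>
      mul_nonneg (mul_nonneg (mul_nonneg (by linarith [hW ω x]) (by linarith [hW ω y]))
        (KK_nonneg _ _)) (sq_nonneg _)
  have hint : Integrable (fun ω => En (AT N) (W ω) f) P := by
    refine hFi.mono hm (Filter.Eventually.of_forall fun ω => ?_)
    rw [Real.norm_eq_abs, Real.norm_eq_abs, abs_of_nonneg (h0 ω),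
      abs_of_nonneg ((h0 ω).trans (h1 ω))]
    exact h1 ω
  refine ⟨hint, (integral_mono hint hFi h1).trans ?_⟩
  have hterm : ∀ b : Tor N, ∫ ω, ∑ a, (nrm (a - b) : ℝ) ^ 2 *
      Real.exp (-2 * μ * dg (nbT N) (B ω) b a) ∂P ≤ 2 * c := by
    intro b
    refine integral_sum_exp_le (nb := nbT N) (b := b) (conn_tor b) hB
      (g := fun a => nrm (a - b)) (by simp only [sub_self]; exact nrm_zero) ?_ hμ (Δ := 4)
      (fun x => card_nbT_le x) hc hE (by exact_mod_cast hq)
    intro x y hy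
    have h2 : y - b = (x - b) + (y - x) := by abel
    rw [h2]
    exact (nrm_add_le _ _).trans (Nat.add_le_add_left (nrm_nbs (mem_nbT.1 hy)) _)
  have hti : ∀ b : Tor N, Integrable (fun ω => ∑ a, (nrm (a - b) : ℝ) ^ 2 *
      Real.exp (-2 * μ * dg (nbT N) (B ω) b a)) P := fun b =>
    integrable_comp_finset hB (fun S => ∑ a, (nrm (a - b) : ℝ) ^ 2 *
      Real.exp (-2 * μ * dg (nbT N) S b a))
  simp only [hF]
  rw [integral_finset_sum _ fun b _ => (hti b).const_mul 4]
  simp only [integral_const_mul]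
  calc ∑ b : Tor N, 4 * ∫ ω, ∑ a, (nrm (a - b) : ℝ) ^ 2 *
        Real.exp (-2 * μ * dg (nbT N) (B ω) b a) ∂P
      ≤ ∑ b : Tor N, 4 * (2 * c) :=
        Finset.sum_le_sum fun b _ => mul_le_mul_of_nonneg_left (hterm b) (by norm_num)
    _ = 8 * c * Fintype.card (Tor N) := by
        rw [Finset.sum_const, Finset.card_univ, nsmul_eq_mul]; ring

theorem sinh_log_eight : 8 * Real.sinh (Real.log 8) ≤ 32 := by
  rw [Real.sinh_eq, Real.exp_neg, Real.exp_log (by norm_num)]
  norm_num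

/-- **START**, coins version: absorption `≥ 32` off the union of the boxes whose coin shows 1 -/
theorem start_coins {Ω : Type*} [MeasurableSpace Ω] {P : Measure Ω} [IsProbabilityMeasure P]
    {J : Type*} [Fintype J] (X : J → Set Ω) (hX : ∀ j, MeasurableSet (X j)) (q : J → ℝ)
    (hq0 : ∀ j, 0 ≤ q j)
    (hP : ∀ T : Finset J, P.real (⋂ j ∈ T, X j) ≤ ∏ j ∈ T, q j)
    (bx : J → Finset (Tor N))
    (hsum : ∀ x, ∑ j, (if x ∈ bx j then q j * (4096 : ℝ) ^ (bx j).card else 0) ≤ 1)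
    {W : Ω → Tor N → ℂ} (hW : ∀ ω x, (W ω x).im < 0) {B : Ω → Finset (Tor N)}
    (hB : ∀ x, MeasurableSet {ω | x ∈ B ω})
    (hcov : ∀ ω, ∀ x ∈ B ω, ∃ j, ω ∈ X j ∧ x ∈ bx j)
    (hbig : ∀ ω x, x ∉ B ω → 32 ≤ -(W ω x).im) {f : Tor N → ℝ}
    (hf : ∀ x y, |f x - f y| ≤ nrm (x - y))
    (hm : AEStronglyMeasurable (fun ω => En (AT N) (W ω) f) P) :
    Integrable (fun ω => En (AT N) (W ω) f) P ∧
      ∫ ω, En (AT N) (W ω) f ∂P ≤ 22 * Fintype.card (Tor N) := by
  have hlog : 0 ≤ Real.log 8 := Real.log_nonneg (by norm_num)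
  have h8 : Real.exp (Real.log 8) = 8 := Real.exp_log (by norm_num)
  have hs : ∀ k : ℕ, Real.exp (4 * Real.log 8 * k) = (4096 : ℝ) ^ k := by
    intro k
    have : 4 * Real.log 8 * k = (4 * k : ℕ) * Real.log 8 := by push_cast; ring
    rw [this, Real.exp_nat_mul, h8, pow_mul]
    norm_num
  have he1 : Real.exp 1 ≤ 2.7182818286 := Real.exp_one_lt_d9.le
  have h := start_integral (f := f) (c := Real.exp 1) (μ := Real.log 8) hW hB hlog
    (fun ω x hx => sinh_log_eight.trans (hbig ω x hx)) hf (Real.exp_pos _).le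
    (fun l hl => coins X hX q hq0 hP bx hB hcov (s := 4 * Real.log 8) (by positivity)
      (fun x => by simp only [hs]; exact hsum x) l hl) ?_ hm
  · refine ⟨h.1, h.2.trans ?_⟩
    refine mul_le_mul_of_nonneg_right ?_ (Nat.cast_nonneg _)
    linarith
  · have h2 : Real.exp (-2 * Real.log 8) = 1 / 64 := by
      have : -2 * Real.log 8 = -((2 : ℕ) * Real.log 8) := by push_cast; ring
      rw [this, Real.exp_neg, Real.exp_nat_mul, h8]
      norm_num
    rw [h2]
    linarith

end P365T1
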