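import Vale.Agent.P365.T1a.Deriv

/-!
# P365-T1: Combes-Thomas estimate with a weight which is constant on bad clusters.
-/

set_option linter.all false

namespace P365T1

open P365L P365O Matrix Complex MeasureTheory
open scoped ComplexConjugate

variable {ι : Type*} [Fintype ι] [DecidableEq ι] {A : Matrix ι ι ℝ} {W : ι → ℂ}

/-- **Combes-Thomas**: a weight `φ` whose increments are controlled by the local absorption -/
theorem CT_col (hA : A.IsSymm) (hW : ∀ x, (W x).im < 0) {φ : ι → ℝ}
    (hφ : ∀ x, ∑ y, |A x y| * |Real.sinh (φ x - φ y)| ≤ (-(W x).im) / 2) (b : ι) :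
    (-(W b).im) * ∑ a, (-(W a).im) * KK A W a b * Real.exp (2 * (φ a - φ b)) ≤ 4 := by
  set e : ι → ℝ := fun x => -(W x).im with he
  have he0 : ∀ x, 0 < e x := fun x => by simp only [he]; linarith [hW x]
  set v : ι → ℂ := fun x => (Real.exp (φ x - φ b) : ℂ) * Gr A W x b with hv
  set X : ℝ := ∑ x, e x * ‖v x‖ ^ 2 with hX
  -- the equation
  have h1 : ∀ x, (∑ y, (A x y : ℂ) * (Real.exp (φ x - φ y) : ℂ) * v y) + W x * v x =
      if x = b then 1 else 0 := by
    intro x
    have h2 : (Kmat A W * Gr A W) x b = (1 : Matrix ι ι ℂ) x b := by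
      rw [Kmat_mul_Gr hA hW]
    rw [Matrix.mul_apply, Matrix.one_apply] at h2
    have h3 : ∑ y, Kmat A W x y * Gr A W y b = (∑ y, (A x y : ℂ) * Gr A W y b) +
        W x * Gr A W x b := by
      have : ∀ y, Kmat A W x y * Gr A W y b = (A x y : ℂ) * Gr A W y b +
          (if x = y then W x * Gr A W y b else 0) := by
        intro y
        rw [Kmat, Matrix.add_apply, Matrix.map_apply, Matrix.diagonal_apply]
        split_ifs <;> ring
      simp only [this, Finset.sum_add_distrib, Finset.sum_ite_eq, Finset.mem_univ, if_true]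
    rw [h3] at h2
    have h4 : (∑ y, (A x y : ℂ) * (Real.exp (φ x - φ y) : ℂ) * v y) + W x * v x =
        (Real.exp (φ x - φ b) : ℂ) * ((∑ y, (A x y : ℂ) * Gr A W y b) + W x * Gr A W x b) := by
      rw [mul_add, Finset.mul_sum]
      congr 1
      · refine Finset.sum_congr rfl fun y _ => ?_
        rw [hv]
        have : (Real.exp (φ x - φ b) : ℂ) =
            (Real.exp (φ x - φ y) : ℂ) * (Real.exp (φ y - φ b) : ℂ) := by
          rw [← Complex.ofReal_mul, ← Real.exp_add]
          congr 2
          ring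
        rw [this]
        ring
      · rw [hv]
        ring
    rw [h4, h2]
    split_ifs with h5
    · subst h5
      simp
    · simp
  -- imaginary part of the quadratic form
  have h2 : (∑ x, conj (v x) * (∑ y, (A x y : ℂ) * (Real.exp (φ x - φ y) : ℂ) * v y)).im - X =
      -(v b).im := by
    have h3 : ∑ x, conj (v x) * ((∑ y, (A x y : ℂ) * (Real.exp (φ x - φ y) : ℂ) * v y) +
        W x * v x) = conj (v b) := by
      simp only [h1, mul_ite, mul_one, mul_zero, Finset.sum_ite_eq', Finset.mem_univ, if_true]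
    have h4 : (∑ x, conj (v x) * (W x * v x)).im = -X := by
      rw [Complex.im_sum, hX, ← Finset.sum_neg_distrib]
      refine Finset.sum_congr rfl fun x _ => ?_
      have : conj (v x) * (W x * v x) = ((‖v x‖ ^ 2 : ℝ) : ℂ) * W x := by
        rw [← Complex.normSq_eq_norm_sq, ← Complex.mul_conj]
        ring
      rw [this, Complex.im_ofReal_mul]
      simp only [he]
      ring
    have h5 := congrArg Complex.im h3
    simp only [mul_add, Finset.sum_add_distrib] at h5
    rw [Complex.add_im, h4, Complex.conj_im] at h5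
    linarith
  have h3 : |(∑ x, conj (v x) *
      (∑ y, (A x y : ℂ) * (Real.exp (φ x - φ y) : ℂ) * v y)).im| ≤ X / 2 := by
    -- antisymmetrise
    set S : ℂ := ∑ x, conj (v x) *
      (∑ y, (A x y : ℂ) * (Real.exp (φ x - φ y) : ℂ) * v y) with hS
    have h4 : S = ∑ x, ∑ y, ((A x y * Real.exp (φ x - φ y) : ℝ) : ℂ) * (conj (v x) * v y) := by
      rw [hS]
      refine Finset.sum_congr rfl fun x _ => ?_
      rw [Finset.mul_sum]
      refine Finset.sum_congr rfl fun y _ => ?_
      push_cast
      ring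
    have h5 : S.im = ∑ x, ∑ y, A x y * Real.exp (φ x - φ y) * (conj (v x) * v y).im := by
      rw [h4, Complex.im_sum]
      refine Finset.sum_congr rfl fun x _ => ?_
      rw [Complex.im_sum]
      exact Finset.sum_congr rfl fun y _ => Complex.im_ofReal_mul _ _
    have h6 : S.im = ∑ x, ∑ y, A x y * Real.exp (φ y - φ x) * -(conj (v x) * v y).im := by
      rw [h5, Finset.sum_comm]
      refine Finset.sum_congr rfl fun x _ => Finset.sum_congr rfl fun y _ => ?_
      have h7 : A y x = A x y := congrFun (congrFun hA x) y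
      rw [h7]
      congr 1
      simp [Complex.mul_im]
      ring
    have h7 : S.im = ∑ x, ∑ y, A x y * Real.sinh (φ x - φ y) * (conj (v x) * v y).im := by
      have h8 : S.im = (S.im + S.im) / 2 := by ring
      rw [h8]
      nth_rewrite 1 [h5]
      rw [h6, ← Finset.sum_add_distrib, Finset.sum_div]
      refine Finset.sum_congr rfl fun x _ => ?_
      rw [← Finset.sum_add_distrib, Finset.sum_div]
      refine Finset.sum_congr rfl fun y _ => ?_
      rw [Real.sinh_eq, neg_sub]
      ring
    rw [h7]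
    refine (Finset.abs_sum_le_sum_abs _ _).trans ((Finset.sum_le_sum fun x _ =>
      Finset.abs_sum_le_sum_abs _ _).trans ?_)
    have h8 : ∀ x y, |A x y * Real.sinh (φ x - φ y) * (conj (v x) * v y).im| ≤
        (|A x y| * |Real.sinh (φ x - φ y)|) * ((‖v x‖ ^ 2 + ‖v y‖ ^ 2) / 2) := by
      intro x y
      rw [abs_mul, abs_mul]
      refine mul_le_mul_of_nonneg_left ?_ (by positivity)
      refine (Complex.abs_im_le_norm _).trans ?_
      rw [norm_mul, Complex.norm_conj]
      nlinarith [sq_nonneg (‖v x‖ - ‖v y‖)]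
    refine (Finset.sum_le_sum fun x _ => Finset.sum_le_sum fun y _ => h8 x y).trans ?_
    have h9 : ∑ x, ∑ y, (|A x y| * |Real.sinh (φ x - φ y)|) * ((‖v x‖ ^ 2 + ‖v y‖ ^ 2) / 2) =
        ∑ x, (∑ y, |A x y| * |Real.sinh (φ x - φ y)|) * ‖v x‖ ^ 2 := by
      have h10 : ∑ x, ∑ y, (|A x y| * |Real.sinh (φ x - φ y)|) * ‖v y‖ ^ 2 =
          ∑ x, ∑ y, (|A x y| * |Real.sinh (φ x - φ y)|) * ‖v x‖ ^ 2 := by
        rw [Finset.sum_comm]
        refine Finset.sum_congr rfl fun x _ => Finset.sum_congr rfl fun y _ => ?_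
        have h7 : A y x = A x y := congrFun (congrFun hA x) y
        rw [h7, ← neg_sub (φ x) (φ y), Real.sinh_neg, abs_neg]
      have h11 : ∑ x, ∑ y, (|A x y| * |Real.sinh (φ x - φ y)|) *
          ((‖v x‖ ^ 2 + ‖v y‖ ^ 2) / 2) =
          ((∑ x, ∑ y, (|A x y| * |Real.sinh (φ x - φ y)|) * ‖v x‖ ^ 2) +
            ∑ x, ∑ y, (|A x y| * |Real.sinh (φ x - φ y)|) * ‖v y‖ ^ 2) / 2 := by
        rw [← Finset.sum_add_distrib, Finset.sum_div]
        refine Finset.sum_congr rfl fun x _ => ?_
        rw [← Finset.sum_add_distrib, Finset.sum_div]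
        exact Finset.sum_congr rfl fun y _ => by ring
      rw [h11, h10]
      have h12 : ∀ t : ℝ, (t + t) / 2 = t := fun t => by ring
      rw [h12]
      exact Finset.sum_congr rfl fun x _ => (Finset.sum_mul _ _ _).symm
    rw [h9, hX, Finset.sum_div]
    refine Finset.sum_le_sum fun x _ => ?_
    have := mul_le_mul_of_nonneg_right (hφ x) (sq_nonneg ‖v x‖)
    simp only [he]
    linarith
  -- conclusion
  have hX0 : 0 ≤ X := Finset.sum_nonneg fun x _ => mul_nonneg (he0 x).le (sq_nonneg _)
  have h4 : X / 2 ≤ ‖v b‖ := by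
    have h5 := abs_le.1 h3
    have h6 := Complex.abs_im_le_norm (v b)
    have h7 := le_abs_self (v b).im
    linarith [h5.2]
  have h5 : e b * ‖v b‖ ^ 2 ≤ X :=
    Finset.single_le_sum (f := fun x => e x * ‖v x‖ ^ 2)
      (fun x _ => mul_nonneg (he0 x).le (sq_nonneg _)) (Finset.mem_univ b)
  have h6 : e b * X ≤ 4 := by
    have h7 : e b * X * X ≤ 4 * X := by
      have h8 : (X / 2) ^ 2 ≤ ‖v b‖ ^ 2 := by gcongr
      nlinarith [he0 b]
    by_cases hX1 : X = 0
    · rw [hX1]
      norm_num
    · exact le_of_mul_le_mul_right h7 (lt_of_le_of_ne hX0 (Ne.symm hX1))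
  have h7 : ∑ a, (-(W a).im) * KK A W a b * Real.exp (2 * (φ a - φ b)) = X := by
    rw [hX]
    refine Finset.sum_congr rfl fun a _ => ?_
    rw [hv]
    simp only [norm_mul, Complex.norm_real, Real.norm_eq_abs, abs_of_pos (Real.exp_pos _),
      mul_pow, ← Real.exp_nat_mul, KK, he]
    push_cast
    ring
  rw [h7]
  exact h6

end P365T1
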