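import Vale.Agent.P365.T1a.Deriv
import Vale.Agent.P365.T1a.Bump

/-!
# P365-T1: the cost of lowering the absorption of one site, integrated over its potential.

`rez W z u` = configuration with real part `u` at `z` (absorption of `z` unchanged).
`s_z = sg_z - i Im W_z`.
-/

set_option linter.all false

namespace P365T1

open P365L P365O Matrix Complex MeasureTheory P365T1.Bump
open scoped ComplexConjugate

variable {ι : Type*} [Fintype ι] [DecidableEq ι] {A : Matrix ι ι ℝ} {W : ι → ℂ}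

/-- real part `u` at `z`, same absorption -/
noncomputable def rez (W : ι → ℂ) (z : ι) (u : ℝ) : ι → ℂ :=
  Function.update W z ((u : ℂ) + ((W z).im : ℂ) * I)

/-- coefficient of the law error, independent of `W z` (real AND imaginary part) -/
noncomputable def Cz (A : Matrix ι ι ℝ) (W : ι → ℂ) (f : ι → ℝ) (z : ι) : ℂ :=
  2 * c0 A W f z - 2 * I * ((Nf A W f z : ℝ) : ℂ)

/-- the pole: `G_zz(u) = 1/(u - s_z)` -/
noncomputable def sz (A : Matrix ι ι ℝ) (W : ι → ℂ) (z : ι) : ℂ :=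
  sg A W z - ((W z).im : ℂ) * I

theorem sz_im (z : ι) : (sz A W z).im = (sg A W z).im + (-(W z).im) := by
  simp [sz]
  ring

theorem sz_im_pos (hA : A.IsSymm) (hW : ∀ x, (W x).im < 0) (z : ι) : 0 < (sz A W z).im := by
  rw [sz_im]
  have := sg_im_nonneg hA hW z
  linarith [hW z]

theorem norm_sg_le_norm_sz (hA : A.IsSymm) (hW : ∀ x, (W x).im < 0) (z : ι) :
    ‖sg A W z‖ ^ 2 ≤ ‖sz A W z‖ ^ 2 := by
  have h1 := sg_im_nonneg hA hW z
  have h2 := hW z
  have h3 : (sz A W z).re = (sg A W z).re := by simp [sz]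
  rw [← Complex.normSq_eq_norm_sq, ← Complex.normSq_eq_norm_sq, Complex.normSq_apply,
    Complex.normSq_apply, h3, sz_im]
  nlinarith

theorem rez_im (z : ι) (u : ℝ) : ((u : ℂ) + ((W z).im : ℂ) * I).im = (W z).im := by
  simp

theorem rez_neg (hW : ∀ x, (W x).im < 0) (z : ι) (u : ℝ) (x : ι) : (rez W z u x).im < 0 :=
  update_neg hW (by rw [rez_im]; exact hW z) x

theorem Gr_rez (hA : A.IsSymm) (hW : ∀ x, (W x).im < 0) (z : ι) (u : ℝ) :
    Gr A (rez W z u) z z = ((u : ℂ) - sz A W z)⁻¹ := by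
  rw [rez, Gr_zz_upd hA hW (by rw [rez_im]; exact hW z), sz]
  congr 1
  ring

theorem c0_upd (hA : A.IsSymm) (hW : ∀ x, (W x).im < 0) {z : ι} {v : ℂ} (hv : v.im < 0)
    (f : ι → ℝ) : c0 A (Function.update W z v) f z = c0 A W f z := by
  unfold c0
  refine Finset.sum_congr rfl fun a _ => Finset.sum_congr rfl fun b _ => ?_
  rw [gw_upd hA hW hv, gw_upd hA hW hv, Gi_upd hA hW hv]
  by_cases ha : a = z
  · subst ha
    rw [Gi_left hA hW]
    simp
  · by_cases hb : b = z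
    · subst hb
      rw [Gi_right hA hW]
      simp
    · rw [Function.update_of_ne ha, Function.update_of_ne hb]

theorem Cz_upd (hA : A.IsSymm) (hW : ∀ x, (W x).im < 0) {z : ι} {v : ℂ} (hv : v.im < 0)
    (f : ι → ℝ) : Cz A (Function.update W z v) f z = Cz A W f z := by
  rw [Cz, Cz, c0_upd hA hW hv, Nf_upd hA hW hv]

theorem norm_Cz_le (hA : A.IsSymm) (hW : ∀ x, (W x).im < 0) (f : ι → ℝ) (z : ι) :
    ‖Cz A W f z‖ ≤ 10 * Nf A W f z := by
  have h1 := norm_c0_le hA hW f z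
  have h5 := Nf_nonneg hW (A := A) f z
  rw [Cz]
  refine (norm_sub_le _ _).trans ?_
  rw [norm_mul, Complex.norm_ofNat, norm_mul, norm_mul, Complex.norm_ofNat, Complex.norm_I,
    Complex.norm_real, Real.norm_eq_abs, abs_of_nonneg h5]
  linarith

/-- **the derivative, second form**: nonnegative gain plus law error with coefficient
independent of the site `z` -/
theorem dEn_eq2 (hA : A.IsSymm) (hW : ∀ x, (W x).im < 0) (f : ι → ℝ) (z : ι) :
    dEn A W f z = 4 * Bf A W f z ^ 2 * Sf A W z * ‖Gr A W z z‖ ^ 4 +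
      (I * Cz A W f z * Gr A W z z ^ 2).re := by
  have hS := Sf_pos hA hW z
  set g := Gr A W z z with hg
  have h2 : mm A W z * muf A W f z ^ 2 = Bf A W f z ^ 2 * ‖g‖ ^ 2 / Sf A W z := by
    have h3 := mm_muf_eq hA hW f z
    have hm := mm_eq_Sf hA hW z
    have h4 : mm A W z * (mm A W z * muf A W f z ^ 2) =
        (Bf A W f z * ‖g‖ ^ 2) ^ 2 := by
      rw [← h3]
      ring
    have hgn : 0 < ‖g‖ ^ 2 := pow_pos (norm_pos_iff.2 (Gr_self_ne_zero hA hW z)) 2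
    rw [hm] at h4
    rw [eq_div_iff hS.ne']
    have h5 : ‖g‖ ^ 2 * (Sf A W z * (mm A W z * muf A W f z ^ 2)) =
        ‖g‖ ^ 2 * (Bf A W f z ^ 2 * ‖g‖ ^ 2) := by
      rw [hm]
      linear_combination h4
    have h6 := mul_left_cancel₀ hgn.ne' h5
    linarith
  have h3 : I * bz A W f z * g ^ 2 = I * Cz A W f z * g ^ 2 +
      ((-2 * (Bf A W f z ^ 2 / Sf A W z) : ℝ) : ℂ) * g ^ 2 := by
    rw [bz, Cz]
    push_cast
    linear_combination (2 * ((Bf A W f z : ℂ) ^ 2 / (Sf A W z : ℂ)) * g ^ 2) * Complex.I_sq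
  have h10 : (g ^ 2).re = ‖g‖ ^ 2 - 2 * g.im ^ 2 := by
    rw [← Complex.normSq_eq_norm_sq, Complex.normSq_apply, sq, Complex.mul_re]
    ring
  have h11 : g.im = Sf A W z * ‖g‖ ^ 2 := mm_eq_Sf hA hW z
  rw [dEn_eq hA hW, ← hg, h3, Complex.add_re, Complex.re_ofReal_mul, h10, h11, h2]
  field_simp
  ring

theorem dEn_rez (hA : A.IsSymm) (hW : ∀ x, (W x).im < 0) (f : ι → ℝ) (z : ι) (u : ℝ) :
    dEn A (rez W z u) f z = 4 * Bf A W f z ^ 2 * Sf A W z * ‖((u : ℂ) - sz A W z)⁻¹‖ ^ 4 +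
      (I * Cz A W f z * (1 / ((u : ℂ) - sz A W z) ^ 2)).re := by
  have hv : ((u : ℂ) + ((W z).im : ℂ) * I).im < 0 := by rw [rez_im]; exact hW z
  rw [dEn_eq2 hA (rez_neg hW z u), Gr_rez hA hW]
  have h1 : Bf A (rez W z u) f z = Bf A W f z := Bf_upd hA hW hv f
  have h2 : Cz A (rez W z u) f z = Cz A W f z := Cz_upd hA hW hv f
  have h3 : Sf A (rez W z u) z = Sf A W z := by
    unfold Sf
    refine Finset.sum_congr rfl fun a _ => ?_
    have h4 : gw A (rez W z u) z a = gw A W z a := gw_upd hA hW hv a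
    rw [h4]
    by_cases ha : a = z
    · subst ha
      rw [rez, Function.update_self, rez_im]
    · rw [rez, Function.update_of_ne ha]
  rw [h1, h2, h3, inv_pow, one_div]

theorem Mf_rez (hA : A.IsSymm) (hW : ∀ x, (W x).im < 0) (f : ι → ℝ) (z : ι) (u : ℝ) :
    Mf A (rez W z u) f z = Nf A W f z / ‖(u : ℂ) - sz A W z‖ ^ 2 := by
  have hv : ((u : ℂ) + ((W z).im : ℂ) * I).im < 0 := by rw [rez_im]; exact hW z
  rw [rez, Mf_upd hA hW hv, sz]
  congr 3
  ring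

theorem norm_sub_sz_ge (hA : A.IsSymm) (hW : ∀ x, (W x).im < 0) (z : ι) (u : ℝ) :
    (sz A W z).im ≤ ‖(u : ℂ) - sz A W z‖ := by
  have h := Complex.abs_im_le_norm ((u : ℂ) - sz A W z)
  rw [Complex.sub_im, Complex.ofReal_im, zero_sub, abs_neg] at h
  exact (le_abs_self _).trans h

theorem sub_sz_ne (hA : A.IsSymm) (hW : ∀ x, (W x).im < 0) (z : ι) (u : ℝ) :
    (u : ℂ) - sz A W z ≠ 0 := by
  rw [← norm_pos_iff]
  exact (sz_im_pos hA hW z).trans_le (norm_sub_sz_ge hA hW z u)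

/-- pointwise bound valid for every law -/
theorem neg_dEn_le (hA : A.IsSymm) (hW : ∀ x, (W x).im < 0) (f : ι → ℝ) (z : ι) :
    -dEn A W f z ≤ 10 * Mf A W f z := by
  rw [dEn_eq2 hA hW, Mf_eq hA hW]
  have h1 : 0 ≤ 4 * Bf A W f z ^ 2 * Sf A W z * ‖Gr A W z z‖ ^ 4 :=
    mul_nonneg (mul_nonneg (mul_nonneg (by norm_num) (sq_nonneg _)) (Sf_pos hA hW z).le)
      (pow_nonneg (norm_nonneg _) 4)
  have h2 := Complex.abs_re_le_norm (I * Cz A W f z * Gr A W z z ^ 2)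
  rw [norm_mul, norm_mul, norm_I, one_mul, norm_pow] at h2
  have h3 := norm_Cz_le hA hW f z
  have h4 := neg_abs_le (I * Cz A W f z * Gr A W z z ^ 2).re
  have h5 : ‖Cz A W f z‖ * ‖Gr A W z z‖ ^ 2 ≤ 10 * Nf A W f z * ‖Gr A W z z‖ ^ 2 := by gcongr
  linarith

theorem continuous_inv_sub (hA : A.IsSymm) (hW : ∀ x, (W x).im < 0) (z : ι) :
    Continuous fun u : ℝ => ((u : ℂ) - sz A W z)⁻¹ :=
  (Complex.continuous_ofReal.sub continuous_const).inv₀ (sub_sz_ne hA hW z)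

theorem norm_inv_sub_le (hA : A.IsSymm) (hW : ∀ x, (W x).im < 0) (z : ι) (u : ℝ) :
    ‖((u : ℂ) - sz A W z)⁻¹‖ ≤ ((sz A W z).im)⁻¹ := by
  rw [norm_inv]
  exact inv_anti₀ (sz_im_pos hA hW z) (norm_sub_sz_ge hA hW z u)

variable {ν : Measure ℝ} [IsProbabilityMeasure ν]

theorem integrable_inv4 (hA : A.IsSymm) (hW : ∀ x, (W x).im < 0) (z : ι) :
    Integrable (fun u : ℝ => ‖((u : ℂ) - sz A W z)⁻¹‖ ^ 4) ν := by
  refine Integrable.of_bound ((continuous_inv_sub hA hW z).norm.pow 4).aestronglyMeasurable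
    ((((sz A W z).im)⁻¹) ^ 4) (Filter.Eventually.of_forall fun u => ?_)
  rw [Real.norm_eq_abs, abs_of_nonneg (pow_nonneg (norm_nonneg _) 4)]
  gcongr
  exact norm_inv_sub_le hA hW z u

theorem integrable_inv2 (hA : A.IsSymm) (hW : ∀ x, (W x).im < 0) (z : ι) :
    Integrable (fun u : ℝ => 1 / ((u : ℂ) - sz A W z) ^ 2) ν := by
  simp only [one_div, ← inv_pow]
  refine Integrable.of_bound ((continuous_inv_sub hA hW z).pow 2).aestronglyMeasurable
    ((((sz A W z).im)⁻¹) ^ 2) (Filter.Eventually.of_forall fun u => ?_)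
  rw [norm_pow]
  gcongr
  exact norm_inv_sub_le hA hW z u

theorem integrable_dEn_rez (hA : A.IsSymm) (hW : ∀ x, (W x).im < 0) (f : ι → ℝ) (z : ι) :
    Integrable (fun u => dEn A (rez W z u) f z) ν := by
  simp only [dEn_rez hA hW]
  exact ((integrable_inv4 hA hW z).const_mul _).add ((integrable_inv2 hA hW z).const_mul _).re

/-- **cost, arbitrary law of the potential of `z`** -/
theorem neg_integral_dEn_le (hA : A.IsSymm) (hW : ∀ x, (W x).im < 0) (f : ι → ℝ) (z : ι) :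
    -(∫ u, dEn A (rez W z u) f z ∂ν) ≤
      10 * Nf A W f z * ‖∫ u, 1 / ((u : ℂ) - sz A W z) ^ 2 ∂ν‖ := by
  simp only [dEn_rez hA hW]
  have hi2 : Integrable (fun u : ℝ => I * Cz A W f z * (1 / ((u : ℂ) - sz A W z) ^ 2)) ν :=
    (integrable_inv2 hA hW z).const_mul _
  have hi4 : Integrable (fun u : ℝ => 4 * Bf A W f z ^ 2 * Sf A W z *
      ‖((u : ℂ) - sz A W z)⁻¹‖ ^ 4) ν := (integrable_inv4 hA hW z).const_mul _
  have hadd := integral_add hi4 hi2.re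
  simp only [RCLike.re_eq_complex_re] at hadd
  rw [hadd]
  have h1 : 0 ≤ ∫ u, 4 * Bf A W f z ^ 2 * Sf A W z * ‖((u : ℂ) - sz A W z)⁻¹‖ ^ 4 ∂ν :=
    integral_nonneg fun u => mul_nonneg (mul_nonneg (mul_nonneg (by norm_num) (sq_nonneg _))
      (Sf_pos hA hW z).le) (pow_nonneg (norm_nonneg _) 4)
  have h2 : (∫ u, (I * Cz A W f z * (1 / ((u : ℂ) - sz A W z) ^ 2)).re ∂ν) =
      (I * Cz A W f z * ∫ u, 1 / ((u : ℂ) - sz A W z) ^ 2 ∂ν).re := by
    rw [← integral_const_mul]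
    exact integral_re hi2
  have h3 := Complex.abs_re_le_norm (I * Cz A W f z * ∫ u, 1 / ((u : ℂ) - sz A W z) ^ 2 ∂ν)
  rw [norm_mul, norm_mul, norm_I, one_mul] at h3
  have h4 := norm_Cz_le hA hW f z
  have h5 : ‖Cz A W f z‖ * ‖∫ u, 1 / ((u : ℂ) - sz A W z) ^ 2 ∂ν‖ ≤
      10 * Nf A W f z * ‖∫ u, 1 / ((u : ℂ) - sz A W z) ^ 2 ∂ν‖ := by gcongr
  have h6 := neg_abs_le (I * Cz A W f z * ∫ u, 1 / ((u : ℂ) - sz A W z) ^ 2 ∂ν).re
  rw [h2]
  linarith

/-- **cost, bump law**: off-resonant -/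
theorem exists_cost_bump {v₀ l : ℝ} (hl : 0 < l) :
    ∃ C : ℝ, 0 < C ∧ ∀ (κ : Type) [Fintype κ] [DecidableEq κ] (A : Matrix κ κ ℝ) (W : κ → ℂ)
      (_ : A.IsSymm) (_ : ∀ x, (W x).im < 0) (f : κ → ℝ) (z : κ) (E : ℝ),
      -(∫ v, dEn A (rez W z (v - E)) f z ∂(nuB v₀ l)) ≤
        C * (1 + E ^ 2) * (Nf A W f z / (1 + ‖sg A W z‖ ^ 2)) := by
  obtain ⟨C, hC, hC2⟩ := norm_cauchy2_le' (v₀ := v₀) hl
  refine ⟨20 * C, by positivity, fun κ _ _ A W hA hW f z E => ?_⟩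
  haveI := isProbabilityMeasure_nuB (v₀ := v₀) hl
  haveI : IsProbabilityMeasure ((nuB v₀ l).map fun v => v - E) :=
    Measure.isProbabilityMeasure_map (measurable_id.sub_const E).aemeasurable
  have hcont : Continuous fun u => dEn A (rez W z u) f z := by
    simp only [dEn_rez hA hW]
    refine (continuous_const.mul ((continuous_inv_sub hA hW z).norm.pow 4)).add
      (Complex.continuous_re.comp (continuous_const.mul ?_))
    simp only [one_div, ← inv_pow]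
    exact (continuous_inv_sub hA hW z).pow 2
  have h1 := neg_integral_dEn_le (ν := (nuB v₀ l).map fun v => v - E) hA hW f z
  have hm : AEMeasurable (fun v : ℝ => v - E) (nuB v₀ l) :=
    (measurable_id.sub_const E).aemeasurable
  rw [integral_map hm hcont.aestronglyMeasurable,
    integral_map hm (integrable_inv2 hA hW z).aestronglyMeasurable] at h1
  refine h1.trans ?_
  have hz : (sz A W z + E).im ≠ 0 := by
    rw [Complex.add_im, Complex.ofReal_im, add_zero]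
    exact (sz_im_pos hA hW z).ne'
  have h2 := hC2 (sz A W z + E) hz
  have h3 : ∀ v : ℝ, 1 / (((v - E : ℝ) : ℂ) - sz A W z) ^ 2 =
      1 / ((v : ℂ) - (sz A W z + E)) ^ 2 := by
    intro v
    congr 2
    push_cast
    ring
  simp only [h3]
  have h4 := norm_sg_le_norm_sz hA hW z
  have h5 : ‖sz A W z‖ ^ 2 ≤ 2 * ‖sz A W z + E‖ ^ 2 + 2 * E ^ 2 := by
    have h6 : ‖sz A W z‖ ≤ ‖sz A W z + E‖ + |E| := by
      calc ‖sz A W z‖ = ‖(sz A W z + E) - E‖ := by rw [add_sub_cancel_right]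
        _ ≤ ‖sz A W z + E‖ + ‖(E : ℂ)‖ := norm_sub_le _ _
        _ = _ := by rw [Complex.norm_real, Real.norm_eq_abs]
    have h7 := norm_nonneg (sz A W z)
    have h8 := norm_nonneg (sz A W z + E)
    have h9 := sq_abs E
    nlinarith [sq_nonneg (‖sz A W z + E‖ - |E|), abs_nonneg E]
  have h6 : 1 + ‖sg A W z‖ ^ 2 ≤ 2 * (1 + E ^ 2) * (1 + ‖sz A W z + E‖ ^ 2) := by
    nlinarith [sq_nonneg E, sq_nonneg ‖sz A W z + E‖,
      mul_nonneg (sq_nonneg E) (sq_nonneg ‖sz A W z + E‖)]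
  have h7 : C / (1 + ‖sz A W z + E‖ ^ 2) ≤ 2 * (1 + E ^ 2) * C / (1 + ‖sg A W z‖ ^ 2) := by
    rw [div_le_div_iff₀ (by positivity) (by positivity)]
    nlinarith
  have h8 := Nf_nonneg hW (A := A) f z
  calc 10 * Nf A W f z * ‖∫ v, 1 / ((v : ℂ) - (sz A W z + E)) ^ 2 ∂(nuB v₀ l)‖
      ≤ 10 * Nf A W f z * (2 * (1 + E ^ 2) * C / (1 + ‖sg A W z‖ ^ 2)) :=
        mul_le_mul_of_nonneg_left (h2.trans h7) (by positivity)
    _ = _ := by ring

/-- off-resonant quantity is below the energy density at every bounded potential -/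
theorem Nf_div_le (hA : A.IsSymm) (hW : ∀ x, (W x).im < 0) (f : ι → ℝ) (z : ι) {u L : ℝ}
    (hL : 1 ≤ L) (hu : |u| ≤ L) (hz : -(W z).im ≤ L) :
    Nf A W f z / (1 + ‖sg A W z‖ ^ 2) ≤ 8 * L ^ 2 * Mf A (rez W z u) f z := by
  rw [Mf_rez hA hW]
  have h0 := Nf_nonneg hW (A := A) f z
  have h1 : ‖(u : ℂ) - sz A W z‖ ≤ L + (‖sg A W z‖ + L) := by
    refine (norm_sub_le _ _).trans (add_le_add ?_ ?_)
    · rwa [Complex.norm_real, Real.norm_eq_abs]
    · rw [sz]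
      refine (norm_sub_le _ _).trans (add_le_add le_rfl ?_)
      rw [norm_mul, norm_I, mul_one, Complex.norm_real, Real.norm_eq_abs,
        abs_of_neg (hW z)]
      exact hz
  have h2 := norm_nonneg (sg A W z)
  have h3 : ‖(u : ℂ) - sz A W z‖ ^ 2 ≤ 8 * L ^ 2 * (1 + ‖sg A W z‖ ^ 2) := by
    have h4 : ‖(u : ℂ) - sz A W z‖ ^ 2 ≤ (L + (‖sg A W z‖ + L)) ^ 2 := by gcongr
    have h6 : 1 ≤ L ^ 2 := by nlinarith
    nlinarith [sq_nonneg (2 * L - ‖sg A W z‖), mul_le_mul_of_nonneg_right h6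
      (sq_nonneg ‖sg A W z‖)]
  have h5 : 0 < ‖(u : ℂ) - sz A W z‖ ^ 2 :=
    pow_pos (norm_pos_iff.2 (sub_sz_ne hA hW z u)) 2
  rw [mul_div_assoc', div_le_div_iff₀ (by positivity) h5]
  nlinarith [mul_le_mul_of_nonneg_left h3 h0]

end P365T1
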