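import Vale.Agent.P365.T1a.Site

/-!
# P365-T1: derivative of the energy in one absorption, exact form and bounds.
-/

set_option linter.all false

namespace P365T1

open P365L P365O Matrix Complex MeasureTheory
open scoped ComplexConjugate

variable {ι : Type*} [Fintype ι] [DecidableEq ι] {A : Matrix ι ι ℝ} {W : ι → ℂ}

/-- the coefficient `c₀` -/
noncomputable def c0 (A : Matrix ι ι ℝ) (W : ι → ℂ) (f : ι → ℝ) (z : ι) : ℂ :=
  ∑ a, ∑ b, (((-(W a).im) * (-(W b).im) * (f a - f b) ^ 2 : ℝ) : ℂ) *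
    (conj (Gi A W z a b) * gw A W z a * gw A W z b)

/-- the coefficient `b_z`: the law error at `z` is `Re (i b_z G_zz²)` -/
noncomputable def bz (A : Matrix ι ι ℝ) (W : ι → ℂ) (f : ι → ℝ) (z : ι) : ℂ :=
  2 * c0 A W f z - 2 * I * ((Nf A W f z - Bf A W f z ^ 2 / Sf A W z : ℝ) : ℂ)

/-- derivative of `En` with respect to the absorption `h_z = -Im W_z` -/
noncomputable def dEn (A : Matrix ι ι ℝ) (W : ι → ℂ) (f : ι → ℝ) (z : ι) : ℝ :=
  2 * Mf A W f z + ∑ a, ∑ b, (-(W a).im) * (-(W b).im) *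
    (-2 * (conj (Gr A W a b) * Gr A W a z * Gr A W z b).im) * (f a - f b) ^ 2

theorem dEn_eq (hA : A.IsSymm) (hW : ∀ x, (W x).im < 0) (f : ι → ℝ) (z : ι) :
    dEn A W f z = 2 * (mm A W z * muf A W f z ^ 2) + (I * bz A W f z * Gr A W z z ^ 2).re := by
  set g := Gr A W z z with hg
  have hS := Sf_pos hA hW z
  have hm := mm_eq_Sf hA hW z
  have hmp := mm_pos hA hW z
  -- the double sum
  have h1 : ∑ a, ∑ b, (-(W a).im) * (-(W b).im) *
      (-2 * (conj (Gr A W a b) * Gr A W a z * Gr A W z b).im) * (f a - f b) ^ 2 =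
      -2 * (c0 A W f z * g ^ 2).im -
        2 * (‖g‖ ^ 2 * g.im) * (2 * Sf A W z * Nf A W f z - 2 * Bf A W f z ^ 2) := by
    have e1 : (c0 A W f z * g ^ 2).im = ∑ a, ∑ b, (-(W a).im) * (-(W b).im) * (f a - f b) ^ 2 *
        (conj (Gi A W z a b) * gw A W z a * gw A W z b * g ^ 2).im := by
      rw [c0, Finset.sum_mul, Complex.im_sum]
      refine Finset.sum_congr rfl fun a _ => ?_
      rw [Finset.sum_mul, Complex.im_sum]
      refine Finset.sum_congr rfl fun b _ => ?_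
      rw [mul_assoc, Complex.im_ofReal_mul]
    have e2 : 2 * Sf A W z * Nf A W f z - 2 * Bf A W f z ^ 2 =
        ∑ a, ∑ b, ((-(W a).im) * ‖gw A W z a‖ ^ 2) * ((-(W b).im) * ‖gw A W z b‖ ^ 2) *
          (f a - f b) ^ 2 := by
      have := sum_sum_sq (fun a => (-(W a).im) * ‖gw A W z a‖ ^ 2) (fun a => f a - f z)
      rw [Sf, Nf, Bf, ← this]
      refine Finset.sum_congr rfl fun a _ => Finset.sum_congr rfl fun b _ => ?_
      congr 1
      ring
    rw [e1, e2, Finset.mul_sum, Finset.mul_sum, ← Finset.sum_sub_distrib]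
    refine Finset.sum_congr rfl fun a _ => ?_
    rw [Finset.mul_sum, Finset.mul_sum, ← Finset.sum_sub_distrib]
    refine Finset.sum_congr rfl fun b _ => ?_
    have e3 : conj (Gr A W a b) * Gr A W a z * Gr A W z b =
        conj (Gi A W z a b) * gw A W z a * gw A W z b * g ^ 2 +
          ((‖gw A W z a‖ ^ 2 * ‖gw A W z b‖ ^ 2 * ‖g‖ ^ 2 : ℝ) : ℂ) * g := by
      rw [Gr_eq_Gi hA hW z a b, Gr_eq_gw hA hW z a, Gr_eq_gw' hA hW z b, ← hg]
      have e4 : ∀ u : ℂ, ((‖u‖ ^ 2 : ℝ) : ℂ) = u * conj u := by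
        intro u
        rw [Complex.mul_conj, Complex.normSq_eq_norm_sq]
      rw [Complex.ofReal_mul, Complex.ofReal_mul, e4, e4, e4]
      simp only [map_add, map_mul]
      ring
    rw [e3, Complex.add_im, Complex.im_ofReal_mul]
    ring
  have h2 : mm A W z * muf A W f z ^ 2 = Bf A W f z ^ 2 * ‖g‖ ^ 2 / Sf A W z := by
    have h3 := mm_muf_eq hA hW f z
    have h4 : mm A W z * (mm A W z * muf A W f z ^ 2) =
        (Bf A W f z * ‖g‖ ^ 2) ^ 2 := by
      rw [← h3]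
      ring
    have hgn : 0 < ‖g‖ ^ 2 := pow_pos (norm_pos_iff.2 (Gr_self_ne_zero hA hW z)) 2
    rw [hm] at h4
    rw [eq_div_iff hS.ne']
    have h5 : ‖g‖ ^ 2 * (Sf A W z * (mm A W z * muf A W f z ^ 2)) =
        ‖g‖ ^ 2 * (Bf A W f z ^ 2 * ‖g‖ ^ 2) := by
      rw [hm]
      linear_combination h4
    have h6 := mul_left_cancel₀ hgn.ne' h5
    linarith
  have h7 : (I * bz A W f z * g ^ 2).re = -2 * (c0 A W f z * g ^ 2).im +
      2 * (Nf A W f z - Bf A W f z ^ 2 / Sf A W z) * (g ^ 2).re := by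
    have h8 : I * bz A W f z * g ^ 2 = 2 * (I * (c0 A W f z * g ^ 2)) +
        ((2 * (Nf A W f z - Bf A W f z ^ 2 / Sf A W z) : ℝ) : ℂ) * g ^ 2 := by
      rw [bz]
      push_cast
      linear_combination (-2 * ((Nf A W f z : ℂ) - (Bf A W f z : ℂ) ^ 2 / (Sf A W z : ℂ)) *
        g ^ 2) * Complex.I_sq
    rw [h8, Complex.add_re, Complex.re_ofReal_mul]
    have h9 : (2 * (I * (c0 A W f z * g ^ 2))).re = -2 * (c0 A W f z * g ^ 2).im := by
      generalize c0 A W f z * g ^ 2 = t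
      simp
    rw [h9]
  have h10 : (g ^ 2).re = ‖g‖ ^ 2 - 2 * g.im ^ 2 := by
    rw [← Complex.normSq_eq_norm_sq, Complex.normSq_apply, sq, Complex.mul_re]
    ring
  have h11 : g.im = Sf A W z * ‖g‖ ^ 2 := hm
  rw [dEn, h1, h2, h7, h10, Mf_eq hA hW, ← hg, h11]
  field_simp
  ring

/-! ### bounds -/

/-- contraction property of `e^{1/2} Gi e^{1/2}` -/
theorem Gi_contr (hA : A.IsSymm) (hW : ∀ x, (W x).im < 0) (z : ι) (y : ι → ℂ) :
    ∑ a, (-(W a).im) * ‖∑ b, conj (Gi A W z a b) * (((-(W b).im : ℝ) : ℂ) * y b)‖ ^ 2 ≤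
      ∑ a, (-(W a).im) * ‖y a‖ ^ 2 := by
  set Y : ι → ℂ := fun b => ((-(W b).im : ℝ) : ℂ) * y b with hY
  set u : ι → ℂ := fun a => ∑ b, conj (Gi A W z a b) * Y b with hu
  set X : ℝ := ∑ a, (-(W a).im) * ‖u a‖ ^ 2 with hX
  have hsq : ∀ u : ℂ, ((‖u‖ ^ 2 : ℝ) : ℂ) = u * conj u := by
    intro u
    rw [Complex.mul_conj, Complex.normSq_eq_norm_sq]
  have h1 : ((X : ℝ) : ℂ) = ∑ b, ∑ b', Y b * conj (Y b') * (((Gi A W z b' b).im : ℝ) : ℂ) := by
    rw [hX]
    push_cast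
    have e1 : ∀ a, (-((W a).im : ℂ)) * ((‖u a‖ : ℂ)) ^ 2 =
        ∑ b, ∑ b', (Y b * conj (Y b')) *
          (((-(W a).im : ℝ) : ℂ) * (Gi A W z b' a * conj (Gi A W z b a))) := by
      intro a
      have e2 : ((‖u a‖ : ℂ)) ^ 2 = u a * conj (u a) := by
        rw [← hsq]
        push_cast
        rfl
      rw [e2, hu]
      simp only [map_sum, map_mul, Complex.conj_conj]
      rw [Finset.sum_mul_sum, Finset.mul_sum]
      refine Finset.sum_congr rfl fun b _ => ?_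
      rw [Finset.mul_sum]
      refine Finset.sum_congr rfl fun b' _ => ?_
      rw [Gi_symm hA hW z a b, Gi_symm hA hW z a b']
      push_cast
      ring
    simp only [e1]
    rw [Finset.sum_comm]
    refine Finset.sum_congr rfl fun b _ => ?_
    rw [Finset.sum_comm]
    refine Finset.sum_congr rfl fun b' _ => ?_
    rw [← Finset.mul_sum, Gi_ward hA hW]
  have h2 : ((X : ℝ) : ℂ) = (((-(∑ b, conj (Y b) * u b).im : ℝ)) : ℂ) := by
    have e3 : conj (∑ b, conj (Y b) * u b) =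
        ∑ b, ∑ b', Y b * conj (Y b') * Gi A W z b' b := by
      rw [map_sum]
      refine Finset.sum_congr rfl fun b _ => ?_
      rw [hu]
      simp only [map_mul, map_sum, Complex.conj_conj]
      rw [Finset.mul_sum]
      refine Finset.sum_congr rfl fun b' _ => ?_
      rw [Gi_symm hA hW z b b']
      ring
    have e4 : ∑ b, conj (Y b) * u b = ∑ b, ∑ b', Y b * conj (Y b') * conj (Gi A W z b' b) := by
      rw [Finset.sum_comm]
      refine Finset.sum_congr rfl fun b _ => ?_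
      rw [hu, Finset.mul_sum]
      refine Finset.sum_congr rfl fun b' _ => ?_
      rw [Gi_symm hA hW z b b']
      ring
    have e5 : (((-(∑ b, conj (Y b) * u b).im : ℝ)) : ℂ) =
        (conj (∑ b, conj (Y b) * u b) - ∑ b, conj (Y b) * u b) / (2 * I) := by
      rw [Complex.ofReal_neg, Complex.im_eq_sub_conj]
      ring
    rw [e5, e3, e4, ← Finset.sum_sub_distrib, h1, Finset.sum_div]
    refine Finset.sum_congr rfl fun b _ => ?_
    rw [← Finset.sum_sub_distrib, Finset.sum_div]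
    refine Finset.sum_congr rfl fun b' _ => ?_
    rw [Complex.im_eq_sub_conj]
    ring
  have h3 : X = -(∑ b, conj (Y b) * u b).im := by exact_mod_cast h2
  have h4 : X ≤ ∑ b, (-(W b).im) * ((‖y b‖ ^ 2 + ‖u b‖ ^ 2) / 2) := by
    rw [h3]
    refine (neg_le_abs _).trans ((Complex.abs_im_le_norm _).trans ((norm_sum_le _ _).trans
      (Finset.sum_le_sum fun b _ => ?_)))
    have hb : 0 ≤ -(W b).im := by linarith [hW b]
    rw [hY, norm_mul, Complex.norm_conj, norm_mul, Complex.norm_real, Real.norm_eq_abs,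
      abs_of_nonneg hb, mul_assoc]
    refine mul_le_mul_of_nonneg_left ?_ hb
    nlinarith [sq_nonneg (‖y b‖ - ‖u b‖)]
  have h5 : ∑ b, (-(W b).im) * ((‖y b‖ ^ 2 + ‖u b‖ ^ 2) / 2) =
      ((∑ b, (-(W b).im) * ‖y b‖ ^ 2) + X) / 2 := by
    rw [hX, ← Finset.sum_add_distrib, Finset.sum_div]
    exact Finset.sum_congr rfl fun b _ => by ring
  rw [h5] at h4
  linarith

/-- quadratic form bound -/
theorem Gi_form (hA : A.IsSymm) (hW : ∀ x, (W x).im < 0) (z : ι) (y : ι → ℂ) :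
    ‖∑ a, ∑ b, (((-(W a).im) * (-(W b).im) : ℝ) : ℂ) * (conj (Gi A W z a b) * y a * y b)‖ ≤
      ∑ a, (-(W a).im) * ‖y a‖ ^ 2 := by
  have h1 := Gi_contr hA hW z y
  have h2 : ∑ a, ∑ b, (((-(W a).im) * (-(W b).im) : ℝ) : ℂ) * (conj (Gi A W z a b) * y a * y b) =
      ∑ a, (((-(W a).im : ℝ) : ℂ) * y a) *
        ∑ b, conj (Gi A W z a b) * (((-(W b).im : ℝ) : ℂ) * y b) := by
    refine Finset.sum_congr rfl fun a _ => ?_
    rw [Finset.mul_sum]
    refine Finset.sum_congr rfl fun b _ => ?_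
    push_cast
    ring
  rw [h2]
  refine (norm_sum_le _ _).trans ?_
  set u : ι → ℂ := fun a => ∑ b, conj (Gi A W z a b) * (((-(W b).im : ℝ) : ℂ) * y b) with hu
  have h3 : ∀ a, ‖(((-(W a).im : ℝ) : ℂ) * y a) * u a‖ ≤
      (-(W a).im) * ((‖y a‖ ^ 2 + ‖u a‖ ^ 2) / 2) := by
    intro a
    have hb : 0 ≤ -(W a).im := by linarith [hW a]
    rw [norm_mul, norm_mul, Complex.norm_real, Real.norm_eq_abs, abs_of_nonneg hb, mul_assoc]
    refine mul_le_mul_of_nonneg_left ?_ hb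
    nlinarith [sq_nonneg (‖y a‖ - ‖u a‖)]
  refine (Finset.sum_le_sum fun a _ => h3 a).trans ?_
  have h5 : ∑ b, (-(W b).im) * ((‖y b‖ ^ 2 + ‖u b‖ ^ 2) / 2) =
      ((∑ b, (-(W b).im) * ‖y b‖ ^ 2) + ∑ b, (-(W b).im) * ‖u b‖ ^ 2) / 2 := by
    rw [← Finset.sum_add_distrib, Finset.sum_div]
    exact Finset.sum_congr rfl fun b _ => by ring
  rw [h5]
  linarith

theorem norm_c0_le (hA : A.IsSymm) (hW : ∀ x, (W x).im < 0) (f : ι → ℝ) (z : ι) :
    ‖c0 A W f z‖ ≤ 4 * Nf A W f z := by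
  have h1 : c0 A W f z =
      (∑ a, (((-(W a).im) * (f a - f z) ^ 2 : ℝ) : ℂ) * gw A W z a *
        (((gw A W z a).im : ℝ) : ℂ)) +
      (∑ b, (((-(W b).im) * (f b - f z) ^ 2 : ℝ) : ℂ) * gw A W z b *
        (((gw A W z b).im : ℝ) : ℂ)) -
      2 * ∑ a, ∑ b, (((-(W a).im) * (-(W b).im) : ℝ) : ℂ) * (conj (Gi A W z a b) *
        (((f a - f z : ℝ) : ℂ) * gw A W z a) * (((f b - f z : ℝ) : ℂ) * gw A W z b)) := by
    have e1 : ∑ a, (((-(W a).im) * (f a - f z) ^ 2 : ℝ) : ℂ) * gw A W z a *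
        (((gw A W z a).im : ℝ) : ℂ) =
        ∑ a, ∑ b, (((-(W a).im) * (f a - f z) ^ 2 : ℝ) : ℂ) * gw A W z a *
          (((-(W b).im : ℝ) : ℂ) * (conj (Gi A W z a b) * gw A W z b)) := by
      refine Finset.sum_congr rfl fun a _ => ?_
      rw [← Finset.mul_sum, Gi_gw hA hW]
    have e2 : ∑ b, (((-(W b).im) * (f b - f z) ^ 2 : ℝ) : ℂ) * gw A W z b *
        (((gw A W z b).im : ℝ) : ℂ) =
        ∑ a, ∑ b, (((-(W b).im) * (f b - f z) ^ 2 : ℝ) : ℂ) * gw A W z b *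
          (((-(W a).im : ℝ) : ℂ) * (conj (Gi A W z a b) * gw A W z a)) := by
      rw [Finset.sum_comm]
      refine Finset.sum_congr rfl fun b _ => ?_
      rw [← Finset.mul_sum, ← Gi_gw hA hW]
      congr 1
      refine Finset.sum_congr rfl fun a _ => ?_
      rw [Gi_symm hA hW z b a]
    have e3 : c0 A W f z =
        (∑ a, ∑ b, (((-(W a).im) * (f a - f z) ^ 2 : ℝ) : ℂ) * gw A W z a *
          (((-(W b).im : ℝ) : ℂ) * (conj (Gi A W z a b) * gw A W z b))) +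
        (∑ a, ∑ b, (((-(W b).im) * (f b - f z) ^ 2 : ℝ) : ℂ) * gw A W z b *
          (((-(W a).im : ℝ) : ℂ) * (conj (Gi A W z a b) * gw A W z a))) -
        2 * ∑ a, ∑ b, (((-(W a).im) * (-(W b).im) : ℝ) : ℂ) * (conj (Gi A W z a b) *
          (((f a - f z : ℝ) : ℂ) * gw A W z a) * (((f b - f z : ℝ) : ℂ) * gw A W z b)) := by
      rw [Finset.mul_sum, ← Finset.sum_add_distrib, ← Finset.sum_sub_distrib, c0]
      refine Finset.sum_congr rfl fun a _ => ?_
      rw [Finset.mul_sum, ← Finset.sum_add_distrib, ← Finset.sum_sub_distrib]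
      refine Finset.sum_congr rfl fun b _ => ?_
      push_cast
      ring
    rw [e3, ← e1, ← e2]
  have h2 : ∀ g : ι → ℂ, ‖∑ a, (((-(W a).im) * (f a - f z) ^ 2 : ℝ) : ℂ) * gw A W z a *
      (((gw A W z a).im : ℝ) : ℂ)‖ ≤ Nf A W f z := by
    intro _
    refine (norm_sum_le _ _).trans (Finset.sum_le_sum fun a _ => ?_)
    have hb : 0 ≤ (-(W a).im) * (f a - f z) ^ 2 :=
      mul_nonneg (by linarith [hW a]) (sq_nonneg _)
    rw [norm_mul, norm_mul, Complex.norm_real, Real.norm_eq_abs, abs_of_nonneg hb,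
      Complex.norm_real, Real.norm_eq_abs]
    have := Complex.abs_im_le_norm (gw A W z a)
    have h0 := norm_nonneg (gw A W z a)
    calc (-(W a).im) * (f a - f z) ^ 2 * ‖gw A W z a‖ * |(gw A W z a).im|
        ≤ (-(W a).im) * (f a - f z) ^ 2 * ‖gw A W z a‖ * ‖gw A W z a‖ := by gcongr
      _ = _ := by ring
  have h3 := Gi_form hA hW z (fun a => ((f a - f z : ℝ) : ℂ) * gw A W z a)
  have h4 : ∑ a, (-(W a).im) * ‖((f a - f z : ℝ) : ℂ) * gw A W z a‖ ^ 2 = Nf A W f z := by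
    refine Finset.sum_congr rfl fun a _ => ?_
    rw [norm_mul, mul_pow, Complex.norm_real, Real.norm_eq_abs, sq_abs]
    ring
  rw [h4] at h3
  rw [h1]
  refine (norm_sub_le _ _).trans ?_
  have h5 := norm_add_le (∑ a, (((-(W a).im) * (f a - f z) ^ 2 : ℝ) : ℂ) * gw A W z a *
        (((gw A W z a).im : ℝ) : ℂ)) (∑ b, (((-(W b).im) * (f b - f z) ^ 2 : ℝ) : ℂ) * gw A W z b *
        (((gw A W z b).im : ℝ) : ℂ))
  have h6 := h2 (gw A W z)
  rw [norm_mul, Complex.norm_ofNat]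
  linarith

theorem Bf_sq_le (hA : A.IsSymm) (hW : ∀ x, (W x).im < 0) (f : ι → ℝ) (z : ι) :
    Bf A W f z ^ 2 ≤ Sf A W z * Nf A W f z := by
  have h := Finset.sum_sq_le_sum_mul_sum_of_sq_eq_mul (R := ℝ) Finset.univ
    (r := fun a => (-(W a).im) * ‖gw A W z a‖ ^ 2 * (f a - f z))
    (f := fun a => (-(W a).im) * ‖gw A W z a‖ ^ 2)
    (g := fun a => (-(W a).im) * ‖gw A W z a‖ ^ 2 * (f a - f z) ^ 2)
    (fun a _ => mul_nonneg (by linarith [hW a]) (sq_nonneg _))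
    (fun a _ => mul_nonneg (mul_nonneg (by linarith [hW a]) (sq_nonneg _)) (sq_nonneg _))
    (fun a _ => by ring)
  exact h

/-- **the law error coefficient is at most ten times the off-resonant far energy** -/
theorem norm_bz_le (hA : A.IsSymm) (hW : ∀ x, (W x).im < 0) (f : ι → ℝ) (z : ι) :
    ‖bz A W f z‖ ≤ 10 * Nf A W f z := by
  have hS := Sf_pos hA hW z
  have h1 := norm_c0_le hA hW f z
  have h2 := Bf_sq_le hA hW f z
  have h3 : Bf A W f z ^ 2 / Sf A W z ≤ Nf A W f z := by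
    rw [div_le_iff₀ hS]
    linarith
  have h4 : 0 ≤ Bf A W f z ^ 2 / Sf A W z := div_nonneg (sq_nonneg _) hS.le
  have h5 := Nf_nonneg hW (A := A) f z
  rw [bz]
  refine (norm_sub_le _ _).trans ?_
  rw [norm_mul, Complex.norm_ofNat, norm_mul, norm_mul, Complex.norm_ofNat, Complex.norm_I,
    Complex.norm_real, Real.norm_eq_abs, abs_of_nonneg (by linarith)]
  linarith

end P365T1
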