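import Vale.Agent.P365.L1.Alg2
import Vale.Agent.P365.Open.OneSite

/-!
# P365-T1: exact one-site structure of the energy, arbitrary law.
-/

set_option linter.all false

namespace P365T1

open P365L P365O Matrix Complex
open scoped ComplexConjugate

variable {ι : Type*} [Fintype ι] [DecidableEq ι] {A : Matrix ι ι ℝ} {W : ι → ℂ}

/-- unit wave emitted at `z` (value 1 at `z`); independent of `W z` -/
noncomputable def gw (A : Matrix ι ι ℝ) (W : ι → ℂ) (z a : ι) : ℂ := Gr A W a z / Gr A W z z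

/-- Green matrix with `z` removed (zero row and column at `z`); independent of `W z` -/
noncomputable def Gi (A : Matrix ι ι ℝ) (W : ι → ℂ) (z a b : ι) : ℂ :=
  Gr A W a b - gw A W z a * Gr A W z b

/-- self-energy of `z`: `G_zz = 1/(W_z - sg_z)`; independent of `W z` -/
noncomputable def sg (A : Matrix ι ι ℝ) (W : ι → ℂ) (z : ι) : ℂ := W z - (Gr A W z z)⁻¹

/-- total flux of the unit wave, own absorption included -/
noncomputable def Sf (A : Matrix ι ι ℝ) (W : ι → ℂ) (z : ι) : ℝ :=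
  ∑ a, (-(W a).im) * ‖gw A W z a‖ ^ 2

/-- off-resonant far energy `N_z = ∑ e_a |g_a|² (f_a - f_z)²` -/
noncomputable def Nf (A : Matrix ι ι ℝ) (W : ι → ℂ) (f : ι → ℝ) (z : ι) : ℝ :=
  ∑ a, (-(W a).im) * ‖gw A W z a‖ ^ 2 * (f a - f z) ^ 2

/-- `∑ e_a |g_a|² (f_a - f_z)` -/
noncomputable def Bf (A : Matrix ι ι ℝ) (W : ι → ℂ) (f : ι → ℝ) (z : ι) : ℝ :=
  ∑ a, (-(W a).im) * ‖gw A W z a‖ ^ 2 * (f a - f z)

/-- energy density `M_z = ∑ e_a K_za (f_a - f_z)²` -/
noncomputable def Mf (A : Matrix ι ι ℝ) (W : ι → ℂ) (f : ι → ℝ) (z : ι) : ℝ :=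
  ∑ a, (-(W a).im) * KK A W z a * (f a - f z) ^ 2

theorem gw_self (hA : A.IsSymm) (hW : ∀ x, (W x).im < 0) (z : ι) : gw A W z z = 1 :=
  div_self (Gr_self_ne_zero hA hW z)

theorem Gr_eq_gw (hA : A.IsSymm) (hW : ∀ x, (W x).im < 0) (z a : ι) :
    Gr A W a z = gw A W z a * Gr A W z z := by
  rw [gw, div_mul_cancel₀ _ (Gr_self_ne_zero hA hW z)]

theorem Gr_eq_gw' (hA : A.IsSymm) (hW : ∀ x, (W x).im < 0) (z a : ι) :
    Gr A W z a = gw A W z a * Gr A W z z := by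
  rw [Gr_symm hA, Gr_eq_gw hA hW]

theorem Gr_eq_Gi (hA : A.IsSymm) (hW : ∀ x, (W x).im < 0) (z a b : ι) :
    Gr A W a b = Gi A W z a b + gw A W z a * gw A W z b * Gr A W z z := by
  rw [Gi, Gr_eq_gw' hA hW z b]
  ring

theorem Gi_eq (hA : A.IsSymm) (hW : ∀ x, (W x).im < 0) (z a b : ι) :
    Gi A W z a b = Gr A W a b - gw A W z a * gw A W z b * Gr A W z z := by
  rw [Gr_eq_Gi hA hW z a b]
  ring

theorem Gi_symm (hA : A.IsSymm) (hW : ∀ x, (W x).im < 0) (z a b : ι) :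
    Gi A W z a b = Gi A W z b a := by
  rw [Gi_eq hA hW, Gi_eq hA hW, Gr_symm hA a b]
  ring

theorem Gi_left (hA : A.IsSymm) (hW : ∀ x, (W x).im < 0) (z b : ι) : Gi A W z z b = 0 := by
  rw [Gi, gw_self hA hW]
  ring

theorem Gi_right (hA : A.IsSymm) (hW : ∀ x, (W x).im < 0) (z a : ι) : Gi A W z a z = 0 := by
  rw [Gi_symm hA hW, Gi_left hA hW]

theorem KK_eq_gw (hA : A.IsSymm) (hW : ∀ x, (W x).im < 0) (z a : ι) :
    KK A W z a = ‖gw A W z a‖ ^ 2 * ‖Gr A W z z‖ ^ 2 := by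
  rw [KK, Gr_eq_gw' hA hW, norm_mul, mul_pow]

theorem mm_eq_Sf (hA : A.IsSymm) (hW : ∀ x, (W x).im < 0) (z : ι) :
    mm A W z = Sf A W z * ‖Gr A W z z‖ ^ 2 := by
  rw [mm_eq hA hW, Sf, Finset.sum_mul]
  refine Finset.sum_congr rfl fun a _ => ?_
  rw [KK_eq_gw hA hW]
  ring

theorem Mf_eq (hA : A.IsSymm) (hW : ∀ x, (W x).im < 0) (f : ι → ℝ) (z : ι) :
    Mf A W f z = Nf A W f z * ‖Gr A W z z‖ ^ 2 := by
  rw [Mf, Nf, Finset.sum_mul]
  refine Finset.sum_congr rfl fun a _ => ?_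
  rw [KK_eq_gw hA hW]
  ring

theorem mm_muf_eq (hA : A.IsSymm) (hW : ∀ x, (W x).im < 0) (f : ι → ℝ) (z : ι) :
    mm A W z * muf A W f z = Bf A W f z * ‖Gr A W z z‖ ^ 2 := by
  rw [mm_mul_muf hA hW, Bf, Finset.sum_mul]
  refine Finset.sum_congr rfl fun a _ => ?_
  rw [KK_eq_gw hA hW]
  ring

theorem Sf_pos (hA : A.IsSymm) (hW : ∀ x, (W x).im < 0) (z : ι) : 0 < Sf A W z := by
  have h := mm_pos hA hW z
  rw [mm_eq_Sf hA hW] at h
  exact pos_of_mul_pos_left h (sq_nonneg _)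

theorem e_le_Sf (hA : A.IsSymm) (hW : ∀ x, (W x).im < 0) (z : ι) : -(W z).im ≤ Sf A W z := by
  have h : (-(W z).im) * ‖gw A W z z‖ ^ 2 ≤ Sf A W z :=
    Finset.single_le_sum (f := fun a => (-(W a).im) * ‖gw A W z a‖ ^ 2)
      (fun a _ => mul_nonneg (by linarith [hW a]) (sq_nonneg _)) (Finset.mem_univ z)
  rwa [gw_self hA hW, norm_one, one_pow, mul_one] at h

theorem Nf_nonneg (hW : ∀ x, (W x).im < 0) (f : ι → ℝ) (z : ι) : 0 ≤ Nf A W f z :=
  Finset.sum_nonneg fun a _ =>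
    mul_nonneg (mul_nonneg (by linarith [hW a]) (sq_nonneg _)) (sq_nonneg _)

theorem Mf_nonneg (hW : ∀ x, (W x).im < 0) (f : ι → ℝ) (z : ι) : 0 ≤ Mf A W f z :=
  Finset.sum_nonneg fun a _ =>
    mul_nonneg (mul_nonneg (by linarith [hW a]) (KK_nonneg _ _)) (sq_nonneg _)

/-- `Im sg_z = flux of the unit wave without the own absorption` -/
theorem sg_im (hA : A.IsSymm) (hW : ∀ x, (W x).im < 0) (z : ι) :
    (sg A W z).im = Sf A W z - (-(W z).im) := by
  have h0 := Gr_self_ne_zero hA hW z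
  have h1 : 0 < ‖Gr A W z z‖ ^ 2 := pow_pos (norm_pos_iff.2 h0) 2
  have h2 : ((Gr A W z z)⁻¹).im = -Sf A W z := by
    rw [Complex.inv_im, Complex.normSq_eq_norm_sq]
    have h3 := mm_eq_Sf hA hW z
    rw [mm] at h3
    rw [h3]
    field_simp
  rw [sg, Complex.sub_im, h2]
  ring

theorem sg_im_nonneg (hA : A.IsSymm) (hW : ∀ x, (W x).im < 0) (z : ι) : 0 ≤ (sg A W z).im := by
  rw [sg_im hA hW]
  linarith [e_le_Sf hA hW z]

theorem Gr_self_eq (hA : A.IsSymm) (hW : ∀ x, (W x).im < 0) (z : ι) :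
    Gr A W z z = (W z - sg A W z)⁻¹ := by
  rw [sg, sub_sub_cancel, inv_inv]

/-! ### independence of `W z` -/

variable {z : ι} {δ : ℂ}

theorem Gr_zz_update (hA : A.IsSymm) (hW : ∀ x, (W x).im < 0) (hδ : (W z + δ).im < 0) :
    (Gr A (Function.update W z (W z + δ)) z z)⁻¹ = (Gr A W z z)⁻¹ + δ := by
  obtain ⟨h1, h2⟩ := Gr_update hA hW z δ hδ
  have h0 := Gr_self_ne_zero hA hW z
  rw [h2]
  have h3 : Gr A W z z - Gr A W z z * Gr A W z z * (δ / (1 + δ * Gr A W z z)) =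
      Gr A W z z / (1 + δ * Gr A W z z) := by
    rw [eq_div_iff h1, sub_mul, mul_assoc _ (δ / _), div_mul_cancel₀ _ h1]
    ring
  rw [h3, inv_div]
  field_simp

theorem gw_update (hA : A.IsSymm) (hW : ∀ x, (W x).im < 0) (hδ : (W z + δ).im < 0) (a : ι) :
    gw A (Function.update W z (W z + δ)) z a = gw A W z a := by
  obtain ⟨h1, h2⟩ := Gr_update hA hW z δ hδ
  have h0 := Gr_self_ne_zero hA hW z
  rw [gw, gw, h2, h2]
  have h3 : ∀ a, Gr A W a z - Gr A W a z * Gr A W z z * (δ / (1 + δ * Gr A W z z)) =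
      Gr A W a z / (1 + δ * Gr A W z z) := by
    intro a
    rw [eq_div_iff h1, sub_mul, mul_assoc _ (δ / _), div_mul_cancel₀ _ h1]
    ring
  rw [h3, h3]
  field_simp

theorem Gi_update (hA : A.IsSymm) (hW : ∀ x, (W x).im < 0) (hδ : (W z + δ).im < 0) (a b : ι) :
    Gi A (Function.update W z (W z + δ)) z a b = Gi A W z a b := by
  obtain ⟨h1, h2⟩ := Gr_update hA hW z δ hδ
  have h0 := Gr_self_ne_zero hA hW z
  rw [Gi, Gi, gw_update hA hW hδ, h2, h2, Gr_eq_gw hA hW z a]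
  field_simp
  ring

theorem sg_update (hA : A.IsSymm) (hW : ∀ x, (W x).im < 0) (hδ : (W z + δ).im < 0) :
    sg A (Function.update W z (W z + δ)) z = sg A W z := by
  rw [sg, sg, Gr_zz_update hA hW hδ, Function.update_self]
  ring

theorem update_neg (hW : ∀ x, (W x).im < 0) {v : ℂ} (hv : v.im < 0) (x : ι) :
    (Function.update W z v x).im < 0 := by
  by_cases hx : x = z
  · subst hx
    rwa [Function.update_self]
  · rw [Function.update_of_ne hx]
    exact hW x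

theorem gw_upd (hA : A.IsSymm) (hW : ∀ x, (W x).im < 0) {v : ℂ} (hv : v.im < 0) (a : ι) :
    gw A (Function.update W z v) z a = gw A W z a := by
  have h := gw_update (δ := v - W z) hA hW (z := z) (by simpa using hv) a
  rwa [add_sub_cancel] at h

theorem Gi_upd (hA : A.IsSymm) (hW : ∀ x, (W x).im < 0) {v : ℂ} (hv : v.im < 0) (a b : ι) :
    Gi A (Function.update W z v) z a b = Gi A W z a b := by
  have h := Gi_update (δ := v - W z) hA hW (z := z) (by simpa using hv) a b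
  rwa [add_sub_cancel] at h

theorem sg_upd (hA : A.IsSymm) (hW : ∀ x, (W x).im < 0) {v : ℂ} (hv : v.im < 0) :
    sg A (Function.update W z v) z = sg A W z := by
  have h := sg_update (δ := v - W z) hA hW (z := z) (by simpa using hv)
  rwa [add_sub_cancel] at h

theorem Gr_zz_upd (hA : A.IsSymm) (hW : ∀ x, (W x).im < 0) {v : ℂ} (hv : v.im < 0) :
    Gr A (Function.update W z v) z z = (v - sg A W z)⁻¹ := by
  rw [Gr_self_eq hA (update_neg hW hv), sg_upd hA hW hv, Function.update_self]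

theorem Nf_upd (hA : A.IsSymm) (hW : ∀ x, (W x).im < 0) {v : ℂ} (hv : v.im < 0) (f : ι → ℝ) :
    Nf A (Function.update W z v) f z = Nf A W f z := by
  unfold Nf
  refine Finset.sum_congr rfl fun a _ => ?_
  by_cases ha : a = z
  · subst ha
    simp
  · rw [Function.update_of_ne ha, gw_upd hA hW hv]

theorem Bf_upd (hA : A.IsSymm) (hW : ∀ x, (W x).im < 0) {v : ℂ} (hv : v.im < 0) (f : ι → ℝ) :
    Bf A (Function.update W z v) f z = Bf A W f z := by
  unfold Bf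
  refine Finset.sum_congr rfl fun a _ => ?_
  by_cases ha : a = z
  · subst ha
    simp
  · rw [Function.update_of_ne ha, gw_upd hA hW hv]

theorem Mf_upd (hA : A.IsSymm) (hW : ∀ x, (W x).im < 0) {v : ℂ} (hv : v.im < 0) (f : ι → ℝ) :
    Mf A (Function.update W z v) f z = Nf A W f z / ‖v - sg A W z‖ ^ 2 := by
  rw [Mf_eq hA (update_neg hW hv), Nf_upd hA hW hv, Gr_zz_upd hA hW hv, norm_inv, inv_pow,
    div_eq_mul_inv]

/-! ### Ward identities with `z` removed -/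

/-- `∑_b e_b conj(Gi_ab) g_b = Im g_a` -/
theorem Gi_gw (hA : A.IsSymm) (hW : ∀ x, (W x).im < 0) (z a : ι) :
    ∑ b, ((-(W b).im : ℝ) : ℂ) * (conj (Gi A W z a b) * gw A W z b) =
      (((gw A W z a).im : ℝ) : ℂ) := by
  have h0 := Gr_self_ne_zero hA hW z
  have hs : ((Sf A W z : ℝ) : ℂ) * (Gr A W z z * conj (Gr A W z z)) =
      ((mm A W z : ℝ) : ℂ) := by
    rw [Complex.mul_conj, Complex.normSq_eq_norm_sq, mm_eq_Sf hA hW]
    push_cast
    ring
  have h1 : ∑ b, ((-(W b).im : ℝ) : ℂ) * (conj (Gi A W z a b) * gw A W z b) =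
      (((Gr A W a z).im : ℝ) : ℂ) / Gr A W z z -
        conj (gw A W z a * Gr A W z z) * ((Sf A W z : ℝ) : ℂ) := by
    rw [Ward_apply hA hW a z, Sf]
    push_cast
    rw [Finset.sum_div, Finset.mul_sum, ← Finset.sum_sub_distrib]
    refine Finset.sum_congr rfl fun b _ => ?_
    rw [Gi_eq hA hW z a b, Gr_eq_gw hA hW z b]
    have h2 : (((‖gw A W z b‖ : ℝ)) : ℂ) ^ 2 = gw A W z b * conj (gw A W z b) := by
      rw [Complex.mul_conj, Complex.normSq_eq_norm_sq]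
      push_cast
      rfl
    rw [h2]
    simp only [map_sub, map_mul]
    field_simp
    ring
  rw [h1]
  have hg : gw A W z a = Gr A W a z / Gr A W z z := rfl
  have h3 : conj (gw A W z a * Gr A W z z) = conj (Gr A W a z) := by
    rw [Gr_eq_gw hA hW z a]
  rw [h3]
  have h4 : conj (Gr A W z z) ≠ 0 := by simpa using h0
  have h5 : ((Sf A W z : ℝ) : ℂ) =
      (((Gr A W z z).im : ℝ) : ℂ) / (Gr A W z z * conj (Gr A W z z)) := by
    rw [eq_div_iff (mul_ne_zero h0 h4), hs]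
    rfl
  rw [h5, Complex.im_eq_sub_conj, Complex.im_eq_sub_conj, Complex.im_eq_sub_conj, hg]
  simp only [map_div₀]
  field_simp
  ring

/-- `∑_c e_c Gi_ac conj(Gi_bc) = Im Gi_ab` -/
theorem Gi_ward (hA : A.IsSymm) (hW : ∀ x, (W x).im < 0) (z a b : ι) :
    ∑ c, ((-(W c).im : ℝ) : ℂ) * (Gi A W z a c * conj (Gi A W z b c)) =
      (((Gi A W z a b).im : ℝ) : ℂ) := by
  have h0 := Gr_self_ne_zero hA hW z
  have hw : ∀ p q, ∑ c, ((-(W c).im : ℝ) : ℂ) * (Gr A W p c * conj (Gr A W q c)) =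
      (((Gr A W p q).im : ℝ) : ℂ) := by
    intro p q
    rw [Gr_symm hA p q, Ward_apply hA hW q p]
    refine Finset.sum_congr rfl fun c _ => ?_
    rw [Gr_symm hA c p]
    ring
  have h1 : ∑ c, ((-(W c).im : ℝ) : ℂ) * (Gi A W z a c * conj (Gi A W z b c)) =
      (((Gr A W a b).im : ℝ) : ℂ) - gw A W z a * (((Gr A W z b).im : ℝ) : ℂ) -
        conj (gw A W z b) * (((Gr A W a z).im : ℝ) : ℂ) +
        gw A W z a * conj (gw A W z b) * (((Gr A W z z).im : ℝ) : ℂ) := by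
    rw [← hw a b, ← hw z b, ← hw a z, ← hw z z, Finset.mul_sum, Finset.mul_sum, Finset.mul_sum,
      ← Finset.sum_sub_distrib, ← Finset.sum_sub_distrib, ← Finset.sum_add_distrib]
    refine Finset.sum_congr rfl fun c _ => ?_
    rw [Gi, Gi]
    simp only [map_sub, map_mul]
    ring
  rw [h1, Complex.im_eq_sub_conj, Complex.im_eq_sub_conj, Complex.im_eq_sub_conj,
    Complex.im_eq_sub_conj, Complex.im_eq_sub_conj, Gi_eq hA hW, Gr_eq_gw hA hW z a,
    Gr_eq_gw' hA hW z b]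
  simp only [map_sub, map_mul]
  ring

end P365T1
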